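import Vale.Agent.P146.H355.K3All
import Vale.Agent.P146.H418.Skel

/-!
(K3) on the names of `H418.Skel`.
-/

open MeasureTheory ProbabilityTheory Filter Topology

namespace Vale.Agent.P146.H355

open Vale.Agent.P157.Lv Vale.Agent.P146.H425 Vale.Agent.P146.H646
  Vale.Agent.P146.H196 Vale.Agent.P146.H347 Vale.Agent.P146.H475 Vale.Agent.P146.H816
  Vale.Agent.P146.H418

set_option linter.unusedSectionVars false

/-- `κ_F` of one amplitude law at the shares `t`, `u`, at the site `i` -/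
noncomputable def kapL (L : Law) (S : Finset (Fin L.n)) (t u : ℝ) (i : Fin L.n) :
    (Co L.n Bool Bool → ℝ) → ℝ :=
  kapA L.n L.b (cb t) (cf L.vp u) L.s L.η L.lam L.c L.x (Kt L.n S) i

lemma Sn_not_mem {n m : ℕ} {i : Fin n} (h : (i : ℕ) + m = n) : i ∉ Sn n m := by
  unfold Sn
  simp [h]

lemma card_Sn_compl {n m : ℕ} (hm : m ≤ n) : (Sn n m)ᶜ.card = m := by
  have h1 : (Sn n m)ᶜ = Finset.univ.filter fun i : Fin n => n - m ≤ (i : ℕ) := by
    ext i
    unfold Sn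
    simp only [Finset.mem_compl, Finset.mem_filter, Finset.mem_univ, true_and, not_lt]
    omega
  have h2 : (Finset.univ.filter fun i : Fin n => (i : ℕ) < n - m).card = n - m := by
    rw [Fin.card_filter_val_lt]
    omega
  have h3 := Finset.card_filter_add_card_filter_not (s := (Finset.univ : Finset (Fin n)))
    (fun i : Fin n => (i : ℕ) < n - m)
  have h4 : (Finset.univ.filter fun i : Fin n => ¬ (i : ℕ) < n - m) =
      Finset.univ.filter fun i : Fin n => n - m ≤ (i : ℕ) := by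
    ext i
    simp
  rw [h4, h2, Finset.card_univ, Fintype.card_fin] at h3
  rw [h1]
  omega

lemma abs_cf_false (v : ℝ) {u : ℝ} (hu : u ≤ 1) : |cf v u false| = √((1 - u) * v) := by
  have h0 : 0 ≤ 1 - u := by linarith
  simp only [cf, cb, Bool.false_eq_true, if_false]
  rw [abs_of_nonneg (by positivity), mul_comm, Real.sqrt_mul h0]

/-- **(K3) on the canonical two levels**, any revealed set of sites -/
theorem k3_law (L : Law) (hl : 0 < L.lam) (hη : 0 ≤ L.η) (hx0 : 0 ≤ L.x) {b2 : ℝ}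
    (hb0 : 0 < b2) (hx : L.x ≤ cK b2 / 4)
    (hb : L.b ^ 2 + L.vp + (1 + L.η) ^ 2 * L.s ^ 2 ≤ b2) (hv : 0 < L.vp) {t u : ℝ}
    (ht0 : 0 ≤ t) (ht1 : t ≤ 1) (hu0 : 0 ≤ u) (hu1 : u < 1) {S : Finset (Fin L.n)}
    {i0 : Fin L.n} (hi : i0 ∉ S) :
    L.ex' t u (fun z => if -cK b2 / 2 < kapL L S t u i0 z then 1 else 0) ≤
      32 / cK b2 * (1 / √(Sᶜ.card : ℝ) +
        (1 / √(L.n * ((1 - u) * L.vp)) + L.η * |L.s| / √((1 - u) * L.vp))) := by
  have h1u : 0 < 1 - u := by linarith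
  have h1 : 0 < (1 - u) * L.vp := mul_pos h1u hv
  have e1 := abs_cf_false L.vp hu1.le
  have hc0 : cf L.vp u false ≠ 0 := by
    rw [← abs_pos, e1]
    exact Real.sqrt_pos.2 h1
  have h2 := k3_K (n := L.n) (LB := Bool) (LF := Bool) hl hη L.c L.b (cb t) (cf L.vp u) L.s
    (x := L.x) (b2 := b2) hx0 hb0 hx
    (by
      rw [sum_cb ht0 ht1, sum_cf hv.le hu0 hu1.le, mul_one]
      exact hb) hc0 (A := S) (BL := {true}) (FL := {true}) (by simp) hi
  rw [e1] at h2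
  have e2 : √((1 - u) * L.vp) * √(L.n : ℝ) = √(L.n * ((1 - u) * L.vp)) := by
    rw [mul_comm, ← Real.sqrt_mul (Nat.cast_nonneg _)]
  rw [e2] at h2
  exact h2

/-- **(K3) at the canonical hidden set** -/
theorem k3_can (L : Law) (hl : 0 < L.lam) (hη : 0 ≤ L.η) (hx0 : 0 ≤ L.x) {b2 : ℝ}
    (hb0 : 0 < b2) (hx : L.x ≤ cK b2 / 4)
    (hb : L.b ^ 2 + L.vp + (1 + L.η) ^ 2 * L.s ^ 2 ≤ b2) (hv : 0 < L.vp) {t u : ℝ}
    (ht0 : 0 ≤ t) (ht1 : t ≤ 1) (hu0 : 0 ≤ u) (hu1 : u < 1) {m : ℕ} {i0 : Fin L.n}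
    (hi : (i0 : ℕ) + m = L.n) :
    L.ex' t u (fun z => if -cK b2 / 2 < kapL L (Sn L.n m) t u i0 z then 1 else 0) ≤
      32 / cK b2 * (1 / √(m : ℝ) +
        (1 / √(L.n * ((1 - u) * L.vp)) + L.η * |L.s| / √((1 - u) * L.vp))) := by
  have h := k3_law L hl hη hx0 hb0 hx hb hv ht0 ht1 hu0 hu1 (Sn_not_mem hi)
  rw [card_Sn_compl (by omega)] at h
  exact h

/-- measurability and bounds of `kapL` -/
lemma kapL_bm (L : Law) (hl : 0 < L.lam) (hη : 0 ≤ L.η) (S : Finset (Fin L.n)) (t u : ℝ)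
    (i : Fin L.n) : BM (kapL L S t u i) := by
  have hG := gmA (n := L.n) L.b (cb t) (cf L.vp u) L.s hl hη L.c
  have hs : Bm fun w : ℝ × Xs L.n => H325.sp w.2 i := (ksites hl L.η L.c L.b (cb t) (cf L.vp u) L.s
    S {true} {true}).bm i
  exact (wt hG 1 L.x).bm_cx _ (bm_kf hG 1 hs)

lemma kapL_dep (L : Law) (S : Finset (Fin L.n)) (t u : ℝ) (i : Fin L.n) :
    H646.Dep (Kt L.n S) (kapL L S t u i) :=
  dep_cx (μ := g1 _) (w := Zxm (muA (Xs L.n) L.lam L.η L.c) 1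
    (Sm L.b (cb t) (cf L.vp u) L.s L.η) L.x) _

end Vale.Agent.P146.H355
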