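import Vale.Agent.P146.H355.Dev
import Vale.Agent.P146.H347.Mod4

/-!
The sites of the amplitude ensemble of `H347` satisfy `KSites`.
-/

open MeasureTheory ProbabilityTheory Filter Topology

namespace Vale.Agent.P146.H355

open Vale.Agent.P157.Lv Vale.Agent.P146.H425 Vale.Agent.P146.H325 Vale.Agent.P146.H646
  Vale.Agent.P146.H196 Vale.Agent.P146.H347 Vale.Agent.P146.H475 Vale.Agent.P146.H816

set_option linter.unusedSectionVars false

variable {n : ℕ} {LB LF : Type} [Fintype LB] [DecidableEq LB] [Fintype LF] [DecidableEq LF]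

lemma sp_inj {σ : Xs n} {i j : Fin n} (h : sp σ i = sp σ j) : σ i = σ j := by
  unfold sp at h
  have h1 : ((σ i : ℤˣ) : ℤ) = ((σ j : ℤˣ) : ℤ) := by exact_mod_cast h
  exact Units.ext h1

/-- **the sites of the amplitude ensemble**, general revealed sets -/
theorem ksites_g {lam : ℝ} (hl : 0 < lam) (η c b : ℝ) (cB : LB → ℝ) (cF : LF → ℝ) (s : ℝ)
    {SB : LB → Finset (Fin n)} {SF : LF → Finset (Fin n)} {G Hs : Finset (Fin n)}
    (hB : ∀ l, Disjoint (SB l) Hs) (hF : ∀ l, Disjoint (SF l) Hs) (hG : Disjoint G Hs) :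
    KSites (muA (Xs n) lam η c) (Sm b cB cF s η) (fun j (w : ℝ × Xs n) => sp w.2 j)
      (Kg SB SF G) Hs where
  meas j := by
    have := dmx n
    exact (Measurable.of_discrete (f := fun σ : Xs n => sp σ j)).comp measurable_snd
  sq j w := sp_mul_self w.2 j
  flip i hi := by
    refine ⟨eps LB LF (fl i), fun w => (w.1, fun j => w.2 j * fl i j),
      ⟨symG b cB cF s η hl c (fl i), fun e _ => rfl, fun e he => ?_⟩, fun j w => ?_⟩
    · have h1 : ∀ {A : Finset (Fin n)}, Disjoint A Hs → ∀ a ∈ A, fl i a = 1 := by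
        intro A hA a ha
        unfold fl
        rw [if_neg]
        rintro rfl
        exact Finset.disjoint_left.1 hA ha hi
      exact eps_eq_one (fl i) (fun l => h1 (hB l)) (fun l => h1 (hF l)) (h1 hG) he
    · show sp (fun j => w.2 j * fl i j) j = _
      rw [sp_mul, sp_fl]
      split_ifs <;> ring
  swap i hi j hj := by
    refine ⟨cP LB LF (Equiv.swap i j), fun _ => 1, fun w => (w.1, fun l => w.2 (Equiv.swap i j l)),
      ⟨symP b cB cF s η hl c (Equiv.swap i j), fun e he => ?_, fun e _ => rfl⟩,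
      fun l w => rfl, fun w hw => ?_⟩
    · have h1 : ∀ {A : Finset (Fin n)}, Disjoint A Hs → ∀ a ∈ A, Equiv.swap i j a = a := by
        intro A hA a ha
        refine Equiv.swap_apply_of_ne_of_ne ?_ ?_
        · rintro rfl
          exact Finset.disjoint_left.1 hA ha hi
        · rintro rfl
          exact Finset.disjoint_left.1 hA ha hj
      exact cP_fix (Equiv.swap i j) (fun l => h1 (hB l)) (fun l => h1 (hF l)) (h1 hG) he
    · have h1 : w.2 i = w.2 j := sp_inj hw
      refine Prod.ext rfl ?_
      funext l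
      show w.2 (Equiv.swap i j l) = w.2 l
      rw [Equiv.swap_apply_def]
      split_ifs with h2 h3
      · rw [h2, h1]
      · rw [h3, h1]
      · rfl
  perm π := ⟨cP LB LF π, fun _ => 1, fun w => (w.1, fun l => w.2 (π l)),
    symP b cB cF s η hl c π, fun _ _ => rfl⟩

/-- the block form -/
theorem ksites {lam : ℝ} (hl : 0 < lam) (η c b : ℝ) (cB : LB → ℝ) (cF : LF → ℝ) (s : ℝ)
    (A : Finset (Fin n)) (BL : Finset LB) (FL : Finset LF) :
    KSites (muA (Xs n) lam η c) (Sm b cB cF s η) (fun j (w : ℝ × Xs n) => sp w.2 j)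
      (Kset A BL FL) Aᶜ := by
  unfold Kset
  refine ksites_g hl η c b cB cF s (fun l => ?_) (fun l => ?_) (Finset.disjoint_empty_left _)
  · split_ifs
    · exact disjoint_compl_right
    · exact Finset.disjoint_empty_left _
  · split_ifs
    · exact disjoint_compl_right
    · exact Finset.disjoint_empty_left _

end Vale.Agent.P146.H355
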