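import Vale.Agent.P146.H355.K3D

/-!
The law of the coordinates and of a pair of replicas: `E2 Φ`, unnormalised.
-/

open MeasureTheory ProbabilityTheory Filter Topology

namespace Vale.Agent.P146.H355

open Vale.Agent.P157.Lv Vale.Agent.P146.H425 Vale.Agent.P146.H325 Vale.Agent.P146.R1
  Vale.Agent.P146.H646 Vale.Agent.P146.H196 Vale.Agent.P146.H347

set_option linter.unusedSectionVars false

variable {ι : Type} [Fintype ι] [DecidableEq ι] {Ω : Type} [MeasurableSpace Ω]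

/-- the (unnormalised) law of the coordinates and of a pair of replicas -/
noncomputable def E2 (μ : Measure Ω) (k : ℝ) (S : ι → Ω → ℝ) (x : ℝ)
    (Φ : (Ω × Ω) × (ι → ℝ) → ℝ) : ℝ :=
  ∫ q, W2 μ k S x q.1 q.2 * Φ q ∂((μ.prod μ).prod (gI ι))

variable {μ : Measure Ω} {k : ℝ} {S : ι → Ω → ℝ} {M0 x : ℝ}

/-- integrability -/
lemma int2 (hG : GM μ S M0) (k x : ℝ) {Φ : (Ω × Ω) × (ι → ℝ) → ℝ} (h : Bm Φ) :
    Integrable (fun q : (Ω × Ω) × (ι → ℝ) => W2 μ k S x q.1 q.2 * Φ q)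
      ((μ.prod μ).prod (gI ι)) := by
  obtain ⟨C, _, hC⟩ := h.2
  exact int_W2 hG k x h.1 hC

lemma E2_add (hG : GM μ S M0) (k x : ℝ) {Φ Ψ : (Ω × Ω) × (ι → ℝ) → ℝ} (h : Bm Φ) (h' : Bm Ψ) :
    E2 μ k S x (fun q => Φ q + Ψ q) = E2 μ k S x Φ + E2 μ k S x Ψ := by
  unfold E2
  rw [← integral_add (int2 hG k x h) (int2 hG k x h')]
  simp only [mul_add]

lemma E2_const_mul (c : ℝ) (Φ : (Ω × Ω) × (ι → ℝ) → ℝ) :
    E2 μ k S x (fun q => c * Φ q) = c * E2 μ k S x Φ := by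
  unfold E2
  rw [← integral_const_mul]
  refine integral_congr_ae (Filter.Eventually.of_forall fun q => ?_)
  simp only
  ring

lemma E2_sum (hG : GM μ S M0) (k x : ℝ) {κ : Type*} (s : Finset κ)
    {Φ : κ → (Ω × Ω) × (ι → ℝ) → ℝ} (h : ∀ i ∈ s, Bm (Φ i)) :
    E2 μ k S x (fun q => ∑ i ∈ s, Φ i q) = ∑ i ∈ s, E2 μ k S x (Φ i) := by
  unfold E2
  rw [← integral_finsetSum _ fun i hi => int2 hG k x (h i hi)]
  simp only [Finset.mul_sum]

lemma E2_mono (hG : GM μ S M0) (k x : ℝ) {Φ Ψ : (Ω × Ω) × (ι → ℝ) → ℝ} (h : Bm Φ) (h' : Bm Ψ)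
    (hle : ∀ q, Φ q ≤ Ψ q) : E2 μ k S x Φ ≤ E2 μ k S x Ψ := by
  unfold E2
  exact integral_mono (int2 hG k x h) (int2 hG k x h')
    fun q => mul_le_mul_of_nonneg_left (hle q) (W2_pos _ _ _).le

lemma abs_E2_le (hG : GM μ S M0) (k x : ℝ) {Φ Ψ : (Ω × Ω) × (ι → ℝ) → ℝ} (h : Bm Φ)
    (h' : Bm Ψ) (hle : ∀ q, |Φ q| ≤ Ψ q) : |E2 μ k S x Φ| ≤ E2 μ k S x Ψ := by
  rw [abs_le]
  constructor
  · have h1 := E2_mono hG k x (h'.const_mul (-1)) h fun q => by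
      have := (abs_le.1 (hle q)).1
      linarith
    rw [E2_const_mul] at h1
    linarith
  · exact E2_mono hG k x h h' fun q => (le_abs_self _).trans (hle q)

lemma E2_pz (hG : GM μ S M0) (k x : ℝ) {Φ : (Ω × Ω) × (ι → ℝ) → ℝ} (h : Bm Φ) :
    E2 μ k S x Φ = ∫ p, ∫ z, W2 μ k S x p z * Φ (p, z) ∂(gI ι) ∂(μ.prod μ) := by
  have := hG.fin
  unfold E2
  exact integral_prod _ (int2 hG k x h)

lemma E2_zp (hG : GM μ S M0) (k x : ℝ) {Φ : (Ω × Ω) × (ι → ℝ) → ℝ} (h : Bm Φ) :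
    E2 μ k S x Φ = ∫ z, ∫ p, W2 μ k S x p z * Φ (p, z) ∂(μ.prod μ) ∂(gI ι) := by
  have := hG.fin
  unfold E2
  exact integral_prod_symm _ (int2 hG k x h)

lemma bm_z {F : (ι → ℝ) → ℝ} (hF : BM F) : Bm fun q : (Ω × Ω) × (ι → ℝ) => F q.2 := by
  obtain ⟨C, hC⟩ := hF.bd
  exact Bm.of (hF.meas.comp measurable_snd) fun q => hC q.2

lemma bm_1 {f : Ω → ℝ} (hf : Bm f) : Bm fun q : (Ω × Ω) × (ι → ℝ) => f q.1.1 := by
  obtain ⟨C, _, hC⟩ := hf.2
  exact Bm.of (hf.1.comp (measurable_fst.comp measurable_fst)) fun q => hC q.1.1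

lemma bm_2 {f : Ω → ℝ} (hf : Bm f) : Bm fun q : (Ω × Ω) × (ι → ℝ) => f q.1.2 := by
  obtain ⟨C, _, hC⟩ := hf.2
  exact Bm.of (hf.1.comp (measurable_snd.comp measurable_fst)) fun q => hC q.1.2

lemma E2_12 (hG : GM μ S M0) (k x : ℝ) {f g : Ω → ℝ} (hf : Bm f) (hg : Bm g)
    {F : (ι → ℝ) → ℝ} (hF : BM F) : E2 μ k S x (fun q => (f q.1.1 * g q.1.2) * F q.2) =
      ∫ z, Zxm μ k S x z * (avm μ k S f z * avm μ k S g z * F z) ∂(gI ι) := by
  rw [E2_zp hG k x (((bm_1 hf).mul (bm_2 hg)).mul (bm_z hF))]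
  refine integral_congr_ae (Filter.Eventually.of_forall fun z => ?_)
  simp only
  have h1 : (fun p : Ω × Ω => W2 μ k S x p z * ((f p.1 * g p.2) * F z)) =
      fun p : Ω × Ω => W2 μ k S x p z * (f p.1 * g p.2) * F z := by
    funext p
    ring
  rw [h1, integral_mul_const, int_p hG]
  ring

lemma E2_z (hG : GM μ S M0) (k x : ℝ) {F : (ι → ℝ) → ℝ} (hF : BM F) :
    E2 μ k S x (fun q => F q.2) = ∫ z, Zxm μ k S x z * F z ∂(gI ι) := by
  have h := E2_12 hG k x (Bm.const (Ω := Ω) 1) (Bm.const 1) hF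
  simp only [mul_one, one_mul, hG.av_one] at h
  exact h

lemma E2_one (hG : GM μ S M0) (k x : ℝ) :
    E2 μ k S x (fun _ => 1) = ∫ z, Zxm μ k S x z ∂(gI ι) := by
  have h := E2_z hG k x (BM.const 1)
  simp only [mul_one] at h
  exact h

lemma bm_cx2 (hG : GM μ S M0) (k x : ℝ) (K : Finset ι) {Ψ : (ι → ℝ) → ℝ} (hΨ : BM Ψ) :
    Bm fun q : (Ω × Ω) × (ι → ℝ) => cx (g1 ι) K (W2 μ k S x q.1) Ψ q.2 := by
  obtain ⟨C, hC⟩ := hΨ.bd
  exact Bm.of (meas_cx2 hG k x K hΨ.meas)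
    fun q => (wt_W2 hG k x q.1).abs_cx_le K hΨ hC q.2

/-- sections of bounded measurable functions -/
lemma bm_sec {Φ : (Ω × Ω) × (ι → ℝ) → ℝ} (h : Bm Φ) (p : Ω × Ω) :
    BM fun z => Φ (p, z) := by
  obtain ⟨C, _, hC⟩ := h.2
  exact ⟨Measurable.comp (g := Φ) (f := fun z : ι → ℝ => (p, z)) h.1
    (measurable_const.prodMk measurable_id), C, fun z => hC _⟩

/-- **the defining property of the conditional mean given `K` and the pair** -/
theorem E2_cx (hG : GM μ S M0) (k x : ℝ) {K : Finset ι} {Q : (Ω × Ω) × (ι → ℝ) → ℝ}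
    (hQ : Bm Q) (hd : ∀ p, H646.Dep K fun z => Q (p, z)) {Ψ : (ι → ℝ) → ℝ} (hΨ : BM Ψ) :
    E2 μ k S x (fun q => Q q * cx (g1 ι) K (W2 μ k S x q.1) Ψ q.2) =
      E2 μ k S x (fun q => Q q * Ψ q.2) := by
  rw [E2_pz hG k x (hQ.mul (bm_cx2 hG k x K hΨ)), E2_pz hG k x (hQ.mul (bm_z hΨ))]
  refine integral_congr_ae (Filter.Eventually.of_forall fun p => ?_)
  exact integral_cx (wt_W2 hG k x p) (hd p) (bm_sec hQ p) hΨ

/-- invariance under the symmetries -/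
theorem E2_sym (hG : GM μ S M0) (k x : ℝ) {c : Equiv.Perm ι} {ε : ι → ℝ} {T : Ω → Ω}
    (h : Sym μ S c ε T) {Φ : (Ω × Ω) × (ι → ℝ) → ℝ} (hΦ : Measurable Φ) :
    E2 μ k S x (fun q => Φ ((T q.1.1, T q.1.2), ac c ε q.2)) = E2 μ k S x Φ := by
  have := hG.fin
  have hmp : MeasurePreserving (fun q : (Ω × Ω) × (ι → ℝ) => ((T q.1.1, T q.1.2), ac c ε q.2))
      ((μ.prod μ).prod (gI ι)) ((μ.prod μ).prod (gI ι)) :=
    (mp_pair h).prod (mp_ac c h.sq)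
  unfold E2
  have hm : Measurable fun q : (Ω × Ω) × (ι → ℝ) => W2 μ k S x q.1 q.2 * Φ q :=
    (meas_W2 hG k x).mul hΦ
  have h1 := integral_map (μ := (μ.prod μ).prod (gI ι)) hmp.measurable.aemeasurable
    (f := fun q : (Ω × Ω) × (ι → ℝ) => W2 μ k S x q.1 q.2 * Φ q)
    (by rw [hmp.map_eq]; exact hm.aestronglyMeasurable)
  rw [hmp.map_eq] at h1
  rw [h1]
  refine integral_congr_ae (Filter.Eventually.of_forall fun q => ?_)
  simp only
  rw [W2_sym h]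

/-! ### normalisation -/

lemma wn2_bd (hG : GM μ S M0) (k x : ℝ) (K : Finset ι) : ∃ C a : ℝ, 0 ≤ C ∧ 0 ≤ a ∧
    ∀ p z, wn (g1 ι) K (W2 μ k S x p) z ≤ C * Real.exp (a * ‖z‖) := by
  obtain ⟨C, a, hC, ha, hb⟩ := W2_bd hG k x
  have h2 : EG fun z : ι → ℝ => Real.exp (a * ‖z‖) := by
    refine ⟨by fun_prop, 1, a, zero_le_one, ha, fun z => ?_⟩
    rw [abs_of_nonneg (Real.exp_pos _).le, one_mul]
  refine ⟨C * ∫ z', Real.exp (a * ‖z'‖) ∂(gI ι), a, ?_, ha, fun p z => ?_⟩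
  · exact mul_nonneg hC (integral_nonneg fun z => (Real.exp_pos _).le)
  · unfold wn
    have h3 : C * (∫ z', Real.exp (a * ‖z'‖) ∂(gI ι)) * Real.exp (a * ‖z‖) =
        ∫ z', C * Real.exp (a * ‖z‖) * Real.exp (a * ‖z'‖) ∂(gI ι) := by
      rw [integral_const_mul]
      ring
    rw [h3]
    refine integral_mono ((wt_W2 hG k x p).sec K z) (h2.integrable.const_mul _) fun z' => ?_
    refine (hb p _).trans ?_
    rw [mul_assoc, ← Real.exp_add, ← mul_add]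
    exact mul_le_mul_of_nonneg_left (Real.exp_le_exp.2
      (mul_le_mul_of_nonneg_left (norm_glue_le K z z') ha)) hC

lemma int_wn2 (hG : GM μ S M0) (k x : ℝ) (K : Finset ι) {Φ : (Ω × Ω) × (ι → ℝ) → ℝ}
    (h : Bm Φ) : Integrable (fun q : (Ω × Ω) × (ι → ℝ) =>
      Φ q * wn (g1 ι) K (W2 μ k S x q.1) q.2) ((μ.prod μ).prod (gI ι)) := by
  have := hG.fin
  obtain ⟨C, hC0, hC⟩ := h.2
  obtain ⟨D, a, hD, ha, hb⟩ := wn2_bd hG k x K
  have h1 : Integrable (fun z : ι → ℝ => C * (D * Real.exp (a * ‖z‖))) (gI ι) := by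
    have h2 : EG fun z : ι → ℝ => C * (D * Real.exp (a * ‖z‖)) := by
      refine ⟨by fun_prop, C * D, a, by positivity, ha, fun z => ?_⟩
      rw [abs_of_nonneg (by positivity)]
      exact le_of_eq (by ring)
    exact h2.integrable
  have h2 : Integrable (fun q : (Ω × Ω) × (ι → ℝ) => (1 : ℝ) * (C * (D * Real.exp (a * ‖q.2‖))))
      ((μ.prod μ).prod (gI ι)) := (integrable_const (1 : ℝ)).mul_prod h1
  refine h2.mono' (h.1.mul (meas_wn2 hG k x K)).aestronglyMeasurable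
    (Filter.Eventually.of_forall fun q => ?_)
  have hp := (wt_W2 hG k x q.1).wn_pos K q.2
  rw [Real.norm_eq_abs, abs_mul, abs_of_pos hp, one_mul]
  exact mul_le_mul (hC q) (hb q.1 q.2) hp.le hC0

/-- the conditional mean given `K` of a function of `K` and of the pair -/
noncomputable def c2 (μ : Measure Ω) (k : ℝ) (S : ι → Ω → ℝ) (x : ℝ) (K : Finset ι)
    (Q : (Ω × Ω) × (ι → ℝ) → ℝ) (z : ι → ℝ) : ℝ :=
  (∫ p, Q (p, z) * wn (g1 ι) K (W2 μ k S x p) z ∂(μ.prod μ)) / wn (g1 ι) K (Zxm μ k S x) z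

lemma sec_int (hG : GM μ S M0) (k x : ℝ) (K : Finset ι) {Φ : (Ω × Ω) × (ι → ℝ) → ℝ}
    (h : Bm Φ) (z : ι → ℝ) : Integrable (fun p : Ω × Ω =>
      Φ (p, z) * wn (g1 ι) K (W2 μ k S x p) z) (μ.prod μ) := by
  have := hG.fin
  obtain ⟨C, hC0, hC⟩ := h.2
  obtain ⟨D, a, hD, ha, hb⟩ := wn2_bd hG k x K
  have hm1 : Measurable fun p : Ω × Ω => Φ (p, z) :=
    Measurable.comp (g := Φ) (f := fun p : Ω × Ω => (p, z)) h.1
      (measurable_id.prodMk measurable_const)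
  have hm2 : Measurable fun p : Ω × Ω => wn (g1 ι) K (W2 μ k S x p) z :=
    Measurable.comp (g := fun q : (Ω × Ω) × (ι → ℝ) => wn (g1 ι) K (W2 μ k S x q.1) q.2)
      (f := fun p : Ω × Ω => (p, z)) (meas_wn2 hG k x K) (measurable_id.prodMk measurable_const)
  refine Integrable.of_bound (hm1.mul hm2).aestronglyMeasurable (C * (D * Real.exp (a * ‖z‖)))
    (Filter.Eventually.of_forall fun p => ?_)
  have hp := (wt_W2 hG k x p).wn_pos K z
  rw [Real.norm_eq_abs, abs_mul, abs_of_pos hp]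
  exact mul_le_mul (hC _) (hb p z) hp.le hC0

lemma abs_c2_le (hG : GM μ S M0) (k x : ℝ) (K : Finset ι) {Φ : (Ω × Ω) × (ι → ℝ) → ℝ}
    (h : Bm Φ) {C : ℝ} (hC : ∀ q, |Φ q| ≤ C) (z : ι → ℝ) : |c2 μ k S x K Φ z| ≤ C := by
  have := hG.fin
  have hp := (wt hG k x).wn_pos K z
  unfold c2
  rw [abs_div, abs_of_pos hp, div_le_iff₀ hp, ← int_p_wn hG k x K z, ← integral_const_mul]
  refine (abs_integral_le_integral_abs).trans ?_
  have h1 := (sec_int hG k x K (Bm.const (Ω := (Ω × Ω) × (ι → ℝ)) C) z)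
  refine integral_mono (sec_int hG k x K h z).abs h1 fun p => ?_
  show |Φ (p, z) * wn (g1 ι) K (W2 μ k S x p) z| ≤ C * wn (g1 ι) K (W2 μ k S x p) z
  have hq := (wt_W2 hG k x p).wn_pos K z
  rw [abs_mul, abs_of_pos hq]
  exact mul_le_mul_of_nonneg_right (hC _) hq.le

lemma bm_c2 (hG : GM μ S M0) (k x : ℝ) (K : Finset ι) {Φ : (Ω × Ω) × (ι → ℝ) → ℝ}
    (h : Bm Φ) : BM (c2 μ k S x K Φ) := by
  have := hG.fin
  obtain ⟨C, hC0, hC⟩ := h.2
  refine ⟨?_, C, abs_c2_le hG k x K h hC⟩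
  unfold c2
  refine Measurable.div ?_ ((wt hG k x).meas_wn K)
  have h1 : StronglyMeasurable fun q : (Ω × Ω) × (ι → ℝ) =>
      Φ q * wn (g1 ι) K (W2 μ k S x q.1) q.2 := (h.1.mul (meas_wn2 hG k x K)).stronglyMeasurable
  exact h1.integral_prod_left.measurable

lemma dep_c2 {K : Finset ι} {Φ : (Ω × Ω) × (ι → ℝ) → ℝ}
    (hd : ∀ p, H646.Dep K fun z => Φ (p, z)) : H646.Dep K (c2 μ k S x K Φ) := by
  intro z z'
  unfold c2
  rw [dep_wn K z z']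
  congr 1
  refine integral_congr_ae (Filter.Eventually.of_forall fun p => ?_)
  simp only
  rw [dep_wn K z z']
  congr 1
  exact hd p z z'

/-- the mean of `c2` -/
theorem int_c2 (hG : GM μ S M0) (k x : ℝ) {K : Finset ι} {Φ : (Ω × Ω) × (ι → ℝ) → ℝ}
    (h : Bm Φ) (hd : ∀ p, H646.Dep K fun z => Φ (p, z)) :
    ∫ z, Zxm μ k S x z * c2 μ k S x K Φ z ∂(gI ι) = E2 μ k S x Φ := by
  have := hG.fin
  have hw := wt hG k x
  have h1 := integral_wn hw (K := K) (dep_c2 (μ := μ) (k := k) (S := S) (x := x) hd)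
    (bm_c2 hG k x K h) (BM.const 1)
  simp only [mul_one, cx_one hw] at h1
  rw [h1]
  have h2 : ∀ z, c2 μ k S x K Φ z * wn (g1 ι) K (Zxm μ k S x) z =
      ∫ p, Φ (p, z) * wn (g1 ι) K (W2 μ k S x p) z ∂(μ.prod μ) := by
    intro z
    unfold c2
    rw [div_mul_cancel₀ _ (hw.wn_pos K z).ne']
  simp only [h2]
  rw [← integral_prod_symm _ (int_wn2 hG k x K h), integral_prod _ (int_wn2 hG k x K h),
    E2_pz hG k x h]
  refine integral_congr_ae (Filter.Eventually.of_forall fun p => ?_)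
  simp only
  have hwp := wt_W2 hG k x p
  have h3 := integral_wn hwp (K := K) (hd p) (bm_sec h p) (BM.const 1)
  simp only [mul_one, cx_one hwp] at h3
  rw [h3]

theorem ex_c2 (hG : GM μ S M0) (k x : ℝ) {K : Finset ι} {Φ : (Ω × Ω) × (ι → ℝ) → ℝ}
    (h : Bm Φ) (hd : ∀ p, H646.Dep K fun z => Φ (p, z)) :
    ex (g1 ι) (Zxm μ k S x) (c2 μ k S x K Φ) =
      E2 μ k S x Φ / ∫ z, Zxm μ k S x z ∂(gI ι) := by
  unfold ex
  rw [int_c2 hG k x h hd]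

lemma Ma_eq (f : Ω → ℝ) (K : Finset ι) (z : ι → ℝ) : Ma μ k S x K f z =
    c2 μ k S x K (fun q => (1 - f q.1.1 * f q.1.2) / 2 *
      cx (g1 ι) K (W2 μ k S x q.1) (avm μ k S f) q.2 ^ 2) z := rfl

end Vale.Agent.P146.H355
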