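import Vale.Agent.P146.H355.Exch

/-!
`E_x ⟨(∑ c_i s_i¹ ⟨s_i⟩)²⟩ ≤ ∑ c_i²` when `∑ c_i = 0` (all the sites are exchangeable), and the
main theorem `ex_Ma_le`.
-/

open MeasureTheory ProbabilityTheory Filter Topology

namespace Vale.Agent.P146.H355

open Vale.Agent.P157.Lv Vale.Agent.P146.H425 Vale.Agent.P146.H325 Vale.Agent.P146.R1
  Vale.Agent.P146.H646 Vale.Agent.P146.H196 Vale.Agent.P146.H347

set_option linter.unusedSectionVars false

variable {ι : Type} [Fintype ι] [DecidableEq ι] {Ω : Type} [MeasurableSpace Ω]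
  {J : Type} [Fintype J] [DecidableEq J]
  {μ : Measure Ω} {k : ℝ} {S : ι → Ω → ℝ} {M0 x : ℝ} {σ : J → Ω → ℝ} {K : Finset ι}
  {Hs : Finset J}

/-! ### the two-point function -/

/-- `E_x [⟨s_i s_j⟩²]`, unnormalised -/
noncomputable def gg (μ : Measure Ω) (k : ℝ) (S : ι → Ω → ℝ) (x : ℝ) (σ : J → Ω → ℝ)
    (i j : J) : ℝ :=
  ∫ z, Zxm μ k S x z * avm μ k S (fun w => σ i w * σ j w) z ^ 2 ∂(gI ι)

lemma gg_nonneg (i j : J) : 0 ≤ gg μ k S x σ i j :=
  integral_nonneg fun z => mul_nonneg (Zxm_pos _ _).le (sq_nonneg _)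

lemma gg_self (hG : GM μ S M0) (k x : ℝ) (h : KSites μ S σ K Hs) (i : J) :
    gg μ k S x σ i i = ∫ z, Zxm μ k S x z ∂(gI ι) := by
  unfold gg
  simp only [h.sq, hG.av_one, one_pow, mul_one]

lemma gg_perm (h : KSites μ S σ K Hs) (k x : ℝ) (π : Equiv.Perm J) (i j : J) :
    gg μ k S x σ (π i) (π j) = gg μ k S x σ i j := by
  obtain ⟨c, ε, T, hT, hf⟩ := h.perm π
  unfold gg
  rw [← integral_ac c hT.sq
    (fun z => Zxm μ k S x z * avm μ k S (fun w => σ i w * σ j w) z ^ 2)]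
  refine integral_congr_ae (Filter.Eventually.of_forall fun z => ?_)
  simp only
  rw [hT.Zx, hT.av]
  simp only [hf]

lemma gg_pair (h : KSites μ S σ K Hs) (k x : ℝ) {i j i' j' : J} (h1 : i ≠ j) (h2 : i' ≠ j') :
    gg μ k S x σ i' j' = gg μ k S x σ i j := by
  set τ := Equiv.swap i i' with hτ
  have e1 : τ i = i' := Equiv.swap_apply_left i i'
  have e2 : τ j ≠ i' := fun hc => h1 (τ.injective (e1.trans hc.symm))
  have e3 : (Equiv.swap (τ j) j' * τ) i = i' := by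
    rw [Equiv.Perm.mul_apply, e1]
    exact Equiv.swap_apply_of_ne_of_ne e2.symm h2
  have e4 : (Equiv.swap (τ j) j' * τ) j = j' := by
    rw [Equiv.Perm.mul_apply]
    exact Equiv.swap_apply_left _ _
  have := gg_perm h k x (Equiv.swap (τ j) j' * τ) i j
  rwa [e3, e4] at this

lemma gg_eq (hG : GM μ S M0) (k x : ℝ) (h : KSites μ S σ K Hs) : ∃ P : ℝ, 0 ≤ P ∧ ∀ i j : J,
    gg μ k S x σ i j = if i = j then ∫ z, Zxm μ k S x z ∂(gI ι) else P := by
  by_cases hp : ∃ i j : J, i ≠ j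
  · obtain ⟨i, j, hij⟩ := hp
    refine ⟨gg μ k S x σ i j, gg_nonneg i j, fun i' j' => ?_⟩
    by_cases h1 : i' = j'
    · rw [if_pos h1, ← h1, gg_self hG k x h]
    · rw [if_neg h1, gg_pair h k x hij h1]
  · refine ⟨0, le_rfl, fun i' j' => ?_⟩
    have h1 : i' = j' := by
      by_contra hc
      exact hp ⟨i', j', hc⟩
    rw [if_pos h1, ← h1, gg_self hG k x h]

lemma sum_gg (hG : GM μ S M0) (k x : ℝ) (h : KSites μ S σ K Hs) {c : J → ℝ}
    (hc : ∑ i, c i = 0) : ∑ i, ∑ j, c i * c j * gg μ k S x σ i j ≤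
      (∑ i, c i ^ 2) * ∫ z, Zxm μ k S x z ∂(gI ι) := by
  obtain ⟨P, hP, hg⟩ := gg_eq hG k x h
  set G := ∫ z, Zxm μ k S x z ∂(gI ι)
  have e1 : ∀ i j : J, c i * c j * gg μ k S x σ i j =
      (if i = j then c i * c j * (G - P) else 0) + c i * c j * P := by
    intro i j
    rw [hg]
    split_ifs <;> ring
  have e2 : ∑ i, ∑ j, c i * c j * P = 0 := by
    have : ∀ i, ∑ j, c i * c j * P = c i * P * ∑ j, c j := fun i => by
      rw [Finset.mul_sum]
      exact Finset.sum_congr rfl fun j _ => by ring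
    simp only [this, hc, mul_zero, Finset.sum_const_zero]
  simp only [e1, Finset.sum_add_distrib, e2, add_zero, Finset.sum_ite_eq, Finset.mem_univ,
    if_true]
  rw [Finset.sum_mul]
  refine Finset.sum_le_sum fun i _ => ?_
  nlinarith [mul_self_nonneg (c i)]

/-! ### the deviation -/

lemma sq_sum (c a : J → ℝ) : (∑ i, c i * a i) ^ 2 = ∑ i, ∑ j, c i * c j * (a i * a j) := by
  rw [pow_two, Finset.sum_mul_sum]
  exact Finset.sum_congr rfl fun i _ => Finset.sum_congr rfl fun j _ => by ring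

/-- pointwise in the coordinates: the average of `(∑ c_i s_i ⟨s_i⟩)²` is at most
`∑ c_i c_j ⟨s_i s_j⟩²`. -/
lemma av_dev (hG : GM μ S M0) (k x : ℝ) (h : KSites μ S σ K Hs) (c : J → ℝ) (z : ι → ℝ) :
    ∑ i, ∑ j, c i * c j * (avm μ k S (fun w => σ i w * σ j w) z *
        (avm μ k S (σ i) z * avm μ k S (σ j) z)) ≤
      ∑ i, ∑ j, c i * c j * avm μ k S (fun w => σ i w * σ j w) z ^ 2 := by
  have hb : ∀ i, Bm (σ i) := h.bm
  have hb2 : ∀ i j, Bm fun w => σ i w * σ j w := fun i j => (hb i).mul (hb j)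
  -- the left side is an average over `w`
  have e1 : ∑ i, ∑ j, c i * c j * (avm μ k S (fun w => σ i w * σ j w) z *
        (avm μ k S (σ i) z * avm μ k S (σ j) z)) =
      avm μ k S (fun w => (∑ i, c i * (σ i w * avm μ k S (σ i) z)) ^ 2) z := by
    have h1 : (fun w => (∑ i, c i * (σ i w * avm μ k S (σ i) z)) ^ 2) = fun w =>
        ∑ i, ∑ j, (c i * c j * (avm μ k S (σ i) z * avm μ k S (σ j) z)) * (σ i w * σ j w) := by
      funext w
      rw [sq_sum]
      exact Finset.sum_congr rfl fun i _ => Finset.sum_congr rfl fun j _ => by ring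
    rw [h1, hG.av_sum k _ fun i _ => Bm.sum _ fun j _ => (hb2 i j).const_mul _]
    refine Finset.sum_congr rfl fun i _ => ?_
    rw [hG.av_sum k _ fun j _ => (hb2 i j).const_mul _]
    refine Finset.sum_congr rfl fun j _ => ?_
    rw [H196.av_mul]
    ring
  have e2 : ∑ i, ∑ j, c i * c j * avm μ k S (fun w => σ i w * σ j w) z ^ 2 =
      avm μ k S (fun w => ∑ i, ∑ j, (c i * c j * avm μ k S (fun w => σ i w * σ j w) z) *
        (σ i w * σ j w)) z := by
    rw [hG.av_sum k _ fun i _ => Bm.sum _ fun j _ => (hb2 i j).const_mul _]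
    refine Finset.sum_congr rfl fun i _ => ?_
    rw [hG.av_sum k _ fun j _ => (hb2 i j).const_mul _]
    refine Finset.sum_congr rfl fun j _ => ?_
    rw [H196.av_mul]
    ring
  rw [e1, e2]
  refine hG.av_mono k ?_ (Bm.sum _ fun i _ => Bm.sum _ fun j _ => (hb2 i j).const_mul _)
    (fun w => ?_) z
  · exact (Bm.sum _ fun i _ => by
      have := (hb i).const_mul (c i * avm μ k S (σ i) z)
      have h2 : (fun w => c i * (σ i w * avm μ k S (σ i) z)) =
          fun w => c i * avm μ k S (σ i) z * σ i w := by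
        funext w
        ring
      rw [h2]
      exact this).pow 2
  · -- Jensen in the second replica
    have h3 : ∑ i, c i * (σ i w * avm μ k S (σ i) z) =
        avm μ k S (fun w' => ∑ i, (c i * σ i w) * σ i w') z := by
      rw [hG.av_sum k _ fun i _ => (hb i).const_mul _]
      refine Finset.sum_congr rfl fun i _ => ?_
      rw [H196.av_mul]
      ring
    rw [h3]
    refine (hG.av_sq_le k (Bm.sum _ fun i _ => (hb i).const_mul _) z).trans (le_of_eq ?_)
    have h4 : (fun w' => (∑ i, (c i * σ i w) * σ i w') ^ 2) = fun w' =>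
        ∑ i, ∑ j, (c i * c j * (σ i w * σ j w)) * (σ i w' * σ j w') := by
      funext w'
      rw [sq_sum (fun i => c i * σ i w) (fun i => σ i w')]
      exact Finset.sum_congr rfl fun i _ => Finset.sum_congr rfl fun j _ => by ring
    rw [h4, hG.av_sum k _ fun i _ => Bm.sum _ fun j _ => (hb2 i j).const_mul _]
    refine Finset.sum_congr rfl fun i _ => ?_
    rw [hG.av_sum k _ fun j _ => (hb2 i j).const_mul _]
    refine Finset.sum_congr rfl fun j _ => ?_
    rw [H196.av_mul]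
    ring

/-- `∑ c_i s_i¹ ⟨s_i⟩` -/
noncomputable def Y1 (μ : Measure Ω) (k : ℝ) (S : ι → Ω → ℝ) (σ : J → Ω → ℝ) (c : J → ℝ)
    (q : (Ω × Ω) × (ι → ℝ)) : ℝ := ∑ i, c i * (σ i q.1.1 * avm μ k S (σ i) q.2)

/-- `∑ c_i s_i² ⟨s_i⟩` -/
noncomputable def Y2 (μ : Measure Ω) (k : ℝ) (S : ι → Ω → ℝ) (σ : J → Ω → ℝ) (c : J → ℝ)
    (q : (Ω × Ω) × (ι → ℝ)) : ℝ := ∑ i, c i * (σ i q.1.2 * avm μ k S (σ i) q.2)

lemma bm_Y1 (hG : GM μ S M0) (k x : ℝ) (h : KSites μ S σ K Hs) (c : J → ℝ) :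
    Bm (Y1 μ k S σ c) :=
  Bm.sum _ fun i _ => ((bm_1 (h.bm i)).mul (bm_z (bm hG k (h.bm i)))).const_mul _

lemma bm_Y2 (hG : GM μ S M0) (k x : ℝ) (h : KSites μ S σ K Hs) (c : J → ℝ) :
    Bm (Y2 μ k S σ c) :=
  Bm.sum _ fun i _ => ((bm_2 (h.bm i)).mul (bm_z (bm hG k (h.bm i)))).const_mul _

lemma E2_dbl (hG : GM μ S M0) (k x : ℝ) (h : KSites μ S σ K Hs) (c : J → ℝ)
    {F : J → J → (Ω × Ω) × (ι → ℝ) → ℝ} (hF : ∀ i j, Bm (F i j))
    (he : ∀ i j, E2 μ k S x (F i j) = ∫ z, Zxm μ k S x z *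
      (avm μ k S (fun w => σ i w * σ j w) z * (avm μ k S (σ i) z * avm μ k S (σ j) z)) ∂(gI ι)) :
    E2 μ k S x (fun q => ∑ i, ∑ j, c i * c j * F i j q) ≤
      ∑ i, ∑ j, c i * c j * gg μ k S x σ i j := by
  have hw := wt hG k x
  have hb1 : ∀ i, BM (avm μ k S (σ i)) := fun i => bm hG k (h.bm i)
  have hb2 : ∀ i j, BM (avm μ k S fun w => σ i w * σ j w) :=
    fun i j => bm hG k ((h.bm i).mul (h.bm j))
  have hb3 : ∀ i j, BM fun z => avm μ k S (fun w => σ i w * σ j w) z *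
      (avm μ k S (σ i) z * avm μ k S (σ j) z) := fun i j => (hb2 i j).mul ((hb1 i).mul (hb1 j))
  have hb4 : ∀ i j, BM fun z => avm μ k S (fun w => σ i w * σ j w) z ^ 2 := fun i j => by
    have := (hb2 i j).mul (hb2 i j)
    simpa only [pow_two] using this
  have e1 : E2 μ k S x (fun q => ∑ i, ∑ j, c i * c j * F i j q) =
      ∑ i, ∑ j, c i * c j * ∫ z, Zxm μ k S x z *
      (avm μ k S (fun w => σ i w * σ j w) z * (avm μ k S (σ i) z * avm μ k S (σ j) z)) ∂(gI ι) := by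
    rw [E2_sum hG k x _ fun i _ => Bm.sum _ fun j _ => (hF i j).const_mul _]
    refine Finset.sum_congr rfl fun i _ => ?_
    rw [E2_sum hG k x _ fun j _ => (hF i j).const_mul _]
    refine Finset.sum_congr rfl fun j _ => ?_
    rw [E2_const_mul, he]
  have e2 : ∀ f : J → J → (ι → ℝ) → ℝ, (∀ i j, BM (f i j)) →
      ∑ i, ∑ j, c i * c j * ∫ z, Zxm μ k S x z * f i j z ∂(gI ι) =
        ∫ z, Zxm μ k S x z * ∑ i, ∑ j, c i * c j * f i j z ∂(gI ι) := by
    intro f hf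
    have h1 : ∀ i j, Integrable (fun z => c i * c j * (Zxm μ k S x z * f i j z)) (gI ι) :=
      fun i j => (hw.int_mul (hf i j)).const_mul _
    simp only [← integral_const_mul]
    simp only [← integral_finsetSum _ fun j _ => h1 _ j]
    rw [← integral_finsetSum _ fun i _ => integrable_finsetSum _ fun j _ => h1 i j]
    refine integral_congr_ae (Filter.Eventually.of_forall fun z => ?_)
    simp only [Finset.mul_sum]
    exact Finset.sum_congr rfl fun i _ => Finset.sum_congr rfl fun j _ => by ring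
  have e3 := e2 _ hb3
  have e4 := e2 _ hb4
  rw [e1, e3]
  unfold gg
  rw [e4]
  have h5 : ∀ f : J → J → (ι → ℝ) → ℝ, (∀ i j, BM (f i j)) →
      BM fun z => ∑ i, ∑ j, c i * c j * f i j z := fun f hf =>
    BM.sum _ fun i _ => BM.sum _ fun j _ => (BM.const _).mul (hf i j)
  refine integral_mono (hw.int_mul (h5 _ hb3)) (hw.int_mul (h5 _ hb4)) fun z => ?_
  exact mul_le_mul_of_nonneg_left (av_dev hG k x h c z) (hw.pos z).le

lemma E2_Y1 (hG : GM μ S M0) (k x : ℝ) (h : KSites μ S σ K Hs) {c : J → ℝ}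
    (hc : ∑ i, c i = 0) : E2 μ k S x (fun q => Y1 μ k S σ c q ^ 2) ≤
      (∑ i, c i ^ 2) * ∫ z, Zxm μ k S x z ∂(gI ι) := by
  refine le_trans ?_ (sum_gg hG k x h hc)
  have hb1 : ∀ i, BM (avm μ k S (σ i)) := fun i => bm hG k (h.bm i)
  have h1 : (fun q : (Ω × Ω) × (ι → ℝ) => Y1 μ k S σ c q ^ 2) = fun q => ∑ i, ∑ j, c i * c j *
      (((σ i q.1.1 * σ j q.1.1) * 1) * (avm μ k S (σ i) q.2 * avm μ k S (σ j) q.2)) := by
    funext q
    unfold Y1
    rw [sq_sum]
    exact Finset.sum_congr rfl fun i _ => Finset.sum_congr rfl fun j _ => by ring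
  rw [h1]
  refine E2_dbl hG k x h c (F := fun i j q => ((σ i q.1.1 * σ j q.1.1) * 1) *
    (avm μ k S (σ i) q.2 * avm μ k S (σ j) q.2)) (fun i j => ?_) fun i j => ?_
  · exact ((bm_1 ((h.bm i).mul (h.bm j))).mul (Bm.const 1)).mul (bm_z ((hb1 i).mul (hb1 j)))
  · have := E2_12 hG k x ((h.bm i).mul (h.bm j)) (Bm.const 1) ((hb1 i).mul (hb1 j))
    simp only [hG.av_one, mul_one] at this ⊢
    exact this

lemma E2_Y2 (hG : GM μ S M0) (k x : ℝ) (h : KSites μ S σ K Hs) {c : J → ℝ}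
    (hc : ∑ i, c i = 0) : E2 μ k S x (fun q => Y2 μ k S σ c q ^ 2) ≤
      (∑ i, c i ^ 2) * ∫ z, Zxm μ k S x z ∂(gI ι) := by
  refine le_trans ?_ (sum_gg hG k x h hc)
  have hb1 : ∀ i, BM (avm μ k S (σ i)) := fun i => bm hG k (h.bm i)
  have h1 : (fun q : (Ω × Ω) × (ι → ℝ) => Y2 μ k S σ c q ^ 2) = fun q => ∑ i, ∑ j, c i * c j *
      ((1 * (σ i q.1.2 * σ j q.1.2)) * (avm μ k S (σ i) q.2 * avm μ k S (σ j) q.2)) := by
    funext q
    unfold Y2
    rw [sq_sum]
    exact Finset.sum_congr rfl fun i _ => Finset.sum_congr rfl fun j _ => by ring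
  rw [h1]
  refine E2_dbl hG k x h c (F := fun i j q => (1 * (σ i q.1.2 * σ j q.1.2)) *
    (avm μ k S (σ i) q.2 * avm μ k S (σ j) q.2)) (fun i j => ?_) fun i j => ?_
  · exact ((Bm.const 1).mul (bm_2 ((h.bm i).mul (h.bm j)))).mul (bm_z ((hb1 i).mul (hb1 j)))
  · have := E2_12 hG k x (Bm.const 1) ((h.bm i).mul (h.bm j)) ((hb1 i).mul (hb1 j))
    simp only [hG.av_one, one_mul] at this ⊢
    exact this

/-! ### the main theorem -/

/-- **`E_x [1(s_0¹ ≠ s_0²) E_x [s_0³ | K, s¹, s²]²] ≤ 1/√N + δ/2`**, `N` the number of the hidden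
sites, `δ` a bound of `E_x ⟨a (R₁₃ - R₂₃)⟩`. -/
theorem ex_Ma_le (hG : GM μ S M0) (k x : ℝ) (h : KSites μ S σ K Hs) {i0 : J} (hi : i0 ∈ Hs)
    {δ : ℝ} (hδ : ∀ a : (Ω × Ω) × (ι → ℝ) → ℝ, Bm a → (∀ q, |a q| ≤ 1) →
      (∀ p, H646.Dep K fun z => a (p, z)) →
      |E2 μ k S x (fun q => a q * ∑ j, (σ j q.1.1 - σ j q.1.2) / (Fintype.card J : ℝ) *
        avm μ k S (σ j) q.2)| ≤ δ * ∫ z, Zxm μ k S x z ∂(gI ι)) :
    ex (g1 ι) (Zxm μ k S x) (Ma μ k S x K (σ i0)) ≤ 1 / √(Hs.card : ℝ) + δ / 2 := by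
  set G := ∫ z, Zxm μ k S x z ∂(gI ι) with hGdef
  have hw := wt hG k x
  have hGpos : 0 < G := hw.tot_pos
  set N : ℝ := (Hs.card : ℝ) with hN
  have hNpos : 0 < N := by
    rw [hN]
    exact_mod_cast Finset.card_pos.2 ⟨i0, hi⟩
  set n : ℝ := (Fintype.card J : ℝ) with hn
  have hnpos : 0 < n := by
    rw [hn]
    exact_mod_cast Fintype.card_pos_iff.2 ⟨i0⟩
  have hab := aa_bm hG k x h
  -- reduction to `E2`
  have hdep : ∀ p, H646.Dep K fun z => ui σ i0 (p, z) * Ai μ k S x σ K i0 (p, z) ^ 2 := by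
    intro p z z'
    have h3 := dep_Ai (μ := μ) (k := k) (S := S) (x := x) (σ := σ) (K := K) i0 p z z'
    simp only at h3 ⊢
    rw [h3]
    rfl
  have e0 : ex (g1 ι) (Zxm μ k S x) (Ma μ k S x K (σ i0)) =
      E2 μ k S x (fun q => ui σ i0 q * Ai μ k S x σ K i0 q ^ 2) / G :=
    ex_c2 hG k x ((bm_ui h i0).mul ((bm_Ai hG k x h i0).pow 2)) hdep
  rw [e0, div_le_iff₀ hGpos]
  -- the coefficients
  set c : J → ℝ := fun i => (if i ∈ Hs then 1 else 0) / N - 1 / n with hc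
  have hs1 : ∑ i, (if i ∈ Hs then (1 : ℝ) else 0) = N := by
    rw [Finset.sum_ite_mem, Finset.univ_inter, Finset.sum_const, nsmul_eq_mul, mul_one]
  have hs0 : ∑ _i : J, (1 : ℝ) / n = 1 := by
    rw [Finset.sum_const, Finset.card_univ, nsmul_eq_mul, ← hn]
    field_simp
  have hcs : ∑ i, c i = 0 := by
    simp only [hc, Finset.sum_sub_distrib, hs0]
    rw [← Finset.sum_div, hs1, div_self hNpos.ne', sub_self]
  have hcq : ∑ i, c i ^ 2 ≤ 1 / N := by
    have e1 : ∀ i, c i ^ 2 = (if i ∈ Hs then (1 : ℝ) else 0) * (1 / N ^ 2 - 2 / (N * n)) +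
        1 / n * (1 / n) := by
      intro i
      simp only [hc]
      split_ifs
      · field_simp
        ring
      · ring
    simp only [e1, Finset.sum_add_distrib, ← Finset.sum_mul, hs1, hs0]
    have e2 : N * (1 / N ^ 2 - 2 / (N * n)) + 1 * (1 / n) = 1 / N - 1 / n := by
      field_simp
      ring
    rw [e2]
    have : 0 < 1 / n := by positivity
    linarith
  -- splitting of the sum over the hidden sites
  have hsplit : ∀ q : (Ω × Ω) × (ι → ℝ), aa μ k S x σ K Hs q *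
      ∑ i ∈ Hs, di σ i q * avm μ k S (σ i) q.2 =
      N / 2 * (aa μ k S x σ K Hs q * ∑ j, (σ j q.1.1 - σ j q.1.2) / n * avm μ k S (σ j) q.2) +
        N / 2 * (aa μ k S x σ K Hs q * (Y1 μ k S σ c q - Y2 μ k S σ c q)) := by
    intro q
    have e1 : ∑ i ∈ Hs, di σ i q * avm μ k S (σ i) q.2 =
        ∑ i, (if i ∈ Hs then (1 : ℝ) else 0) * (di σ i q * avm μ k S (σ i) q.2) := by
      simp only [ite_mul, one_mul, zero_mul, Finset.sum_ite_mem, Finset.univ_inter]
    rw [e1, ← mul_add, ← mul_add, mul_left_comm]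
    congr 1
    unfold Y1 Y2 di
    rw [← Finset.sum_sub_distrib, ← Finset.sum_add_distrib, Finset.mul_sum]
    refine Finset.sum_congr rfl fun i _ => ?_
    simp only [hc]
    field_simp
    ring
  have hb1 : Bm fun q : (Ω × Ω) × (ι → ℝ) => aa μ k S x σ K Hs q *
      ∑ j, (σ j q.1.1 - σ j q.1.2) / n * avm μ k S (σ j) q.2 := by
    refine hab.mul (Bm.sum _ fun j _ => Bm.mul ?_ (bm_z (bm hG k (h.bm j))))
    have h1 := ((bm_1 (ι := ι) (h.bm j)).sub (bm_2 (h.bm j))).const_mul (1 / n)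
    have h2 : (fun q : (Ω × Ω) × (ι → ℝ) => (σ j q.1.1 - σ j q.1.2) / n) =
        fun q => 1 / n * (σ j q.1.1 - σ j q.1.2) := by
      funext q
      ring
    rw [h2]
    exact h1
  have hY1 := bm_Y1 hG k x h c
  have hY2 := bm_Y2 hG k x h c
  have hb2 : Bm fun q : (Ω × Ω) × (ι → ℝ) =>
      aa μ k S x σ K Hs q * (Y1 μ k S σ c q - Y2 μ k S σ c q) := hab.mul (hY1.sub hY2)
  have hcard := card_E2 hG k x h hi
  simp only [hsplit] at hcard
  rw [E2_add hG k x (hb1.const_mul _) (hb2.const_mul _), E2_const_mul, E2_const_mul] at hcard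
  -- first part
  have h1 := (le_abs_self _).trans (hδ _ hab (aa_bd hG k x h) aa_dep)
  -- second part
  have hθ : 0 < √N := Real.sqrt_pos.2 hNpos
  have hθ2 : √N * √N = N := Real.mul_self_sqrt hNpos.le
  have h2 : E2 μ k S x (fun q => aa μ k S x σ K Hs q *
      (Y1 μ k S σ c q - Y2 μ k S σ c q)) ≤ 2 / √N * G := by
    have i1 := E2_Y1 hG k x h hcs
    have i2 := E2_Y2 hG k x h hcs
    have hb3 : Bm fun q : (Ω × Ω) × (ι → ℝ) => √N / 2 * (Y1 μ k S σ c q ^ 2 +
        Y2 μ k S σ c q ^ 2) + 1 / √N * 1 :=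
      (((hY1.pow 2).add (hY2.pow 2)).const_mul _).add ((Bm.const 1).const_mul _)
    have i3 : E2 μ k S x (fun q => aa μ k S x σ K Hs q *
        (Y1 μ k S σ c q - Y2 μ k S σ c q)) ≤ E2 μ k S x (fun q =>
        √N / 2 * (Y1 μ k S σ c q ^ 2 + Y2 μ k S σ c q ^ 2) + 1 / √N * 1) := by
      refine E2_mono hG k x hb2 hb3 fun q => ?_
      have j1 := aa_bd hG k x h q
      set a := aa μ k S x σ K Hs q
      set y1 := Y1 μ k S σ c q
      set y2 := Y2 μ k S σ c q
      have j2 : ∀ y : ℝ, |y| ≤ √N / 2 * y ^ 2 + 1 / (2 * √N) := by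
        intro y
        have j3 : √N / 2 * y ^ 2 + 1 / (2 * √N) - |y| = (√N * |y| - 1) ^ 2 / (2 * √N) := by
          field_simp
          rw [← sq_abs y]
          ring
        have j4 : 0 ≤ (√N * |y| - 1) ^ 2 / (2 * √N) := by positivity
        linarith
      have j5 : a * (y1 - y2) ≤ |y1| + |y2| := by
        calc a * (y1 - y2) ≤ |a * (y1 - y2)| := le_abs_self _
          _ = |a| * |y1 - y2| := abs_mul _ _
          _ ≤ 1 * (|y1| + |y2|) := mul_le_mul j1 (abs_sub _ _) (abs_nonneg _) zero_le_one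
          _ = |y1| + |y2| := one_mul _
      have j6 : 1 / √N * 1 = 1 / (2 * √N) + 1 / (2 * √N) := by
        field_simp
        norm_num
      rw [j6]
      linarith [j2 y1, j2 y2]
    refine i3.trans ?_
    rw [E2_add hG k x (((hY1.pow 2).add (hY2.pow 2)).const_mul _) ((Bm.const 1).const_mul _),
      E2_const_mul, E2_const_mul, E2_add hG k x (hY1.pow 2) (hY2.pow 2), E2_one hG]
    rw [← hGdef] at i1 i2 ⊢
    have i4 : (∑ i, c i ^ 2) * G ≤ 1 / N * G := mul_le_mul_of_nonneg_right hcq hGpos.le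
    have i5 : √N / 2 * (E2 μ k S x (fun q => Y1 μ k S σ c q ^ 2) +
        E2 μ k S x (fun q => Y2 μ k S σ c q ^ 2)) ≤ √N / 2 * (1 / N * G + 1 / N * G) :=
      mul_le_mul_of_nonneg_left (by linarith) (by positivity)
    have i6 : √N / 2 * (1 / N * G + 1 / N * G) = 1 / √N * G := by
      have e : 1 / N = 1 / (√N * √N) := by rw [hθ2]
      have hne := hθ.ne'
      rw [e]
      generalize √N = r at hne
      field_simp
      norm_num
    have i7 : 2 / √N * G = 1 / √N * G + 1 / √N * G := by ring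
    rw [i7]
    linarith
  have h3 : N * E2 μ k S x (fun q => ui σ i0 q * Ai μ k S x σ K i0 q ^ 2) ≤
      N * ((1 / √N + δ / 2) * G) := by
    rw [hcard]
    have e1 := mul_le_mul_of_nonneg_left h1 (by positivity : 0 ≤ N / 2)
    have e2 := mul_le_mul_of_nonneg_left h2 (by positivity : 0 ≤ N / 2)
    have e3 : N * ((1 / √N + δ / 2) * G) = N / 2 * (δ * G) + N / 2 * (2 / √N * G) := by ring
    rw [e3]
    exact add_le_add e1 e2
  exact le_of_mul_le_mul_left h3 hNpos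

end Vale.Agent.P146.H355
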