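import Vale.Agent.P146.H355.K3E

/-!
The exchangeability identity: for hidden sites `i` with `s_i¹ ≠ s_i²` the number
`s_i¹ E_x [s_i³ | K, s¹, s²]` does not depend on `i`; hence
`E_x [1(s_0¹ ≠ s_0²) E_x [s_0³ | K, s¹, s²] ^ 2] ≤ 1 / √N + δ / 2` where `N` is the number of the
hidden sites and `δ` bounds `E_x ⟨a (R₁₃ - R₂₃)⟩`.
-/

open MeasureTheory ProbabilityTheory Filter Topology

namespace Vale.Agent.P146.H355

open Vale.Agent.P157.Lv Vale.Agent.P146.H425 Vale.Agent.P146.H325 Vale.Agent.P146.R1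
  Vale.Agent.P146.H646 Vale.Agent.P146.H196 Vale.Agent.P146.H347

set_option linter.unusedSectionVars false

variable {ι : Type} [Fintype ι] [DecidableEq ι] {Ω : Type} [MeasurableSpace Ω]
  {J : Type} [Fintype J] [DecidableEq J]

/-- The sites: spins `σ j`, revealed coordinates `K`, hidden sites `Hs`, and the symmetries. -/
structure KSites (μ : Measure Ω) (S : ι → Ω → ℝ) (σ : J → Ω → ℝ) (K : Finset ι)
    (Hs : Finset J) : Prop where
  meas : ∀ j, Measurable (σ j)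
  sq : ∀ j w, σ j w * σ j w = 1
  flip : ∀ i ∈ Hs, ∃ (ε : ι → ℝ) (T : Ω → Ω), HSym μ S K 1 ε T ∧
    ∀ j w, σ j (T w) = if j = i then -σ j w else σ j w
  swap : ∀ i ∈ Hs, ∀ j ∈ Hs, ∃ (c : Equiv.Perm ι) (ε : ι → ℝ) (T : Ω → Ω), HSym μ S K c ε T ∧
    (∀ l w, σ l (T w) = σ (Equiv.swap i j l) w) ∧ ∀ w, σ i w = σ j w → T w = w
  perm : ∀ π : Equiv.Perm J, ∃ (c : Equiv.Perm ι) (ε : ι → ℝ) (T : Ω → Ω), Sym μ S c ε T ∧
    ∀ l w, σ l (T w) = σ (π l) w

variable {μ : Measure Ω} {k : ℝ} {S : ι → Ω → ℝ} {M0 x : ℝ} {σ : J → Ω → ℝ} {K : Finset ι}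
  {Hs : Finset J}

lemma KSites.or (h : KSites μ S σ K Hs) (j : J) (w : Ω) : σ j w = 1 ∨ σ j w = -1 :=
  mul_self_eq_one_iff.1 (h.sq j w)

lemma KSites.abs (h : KSites μ S σ K Hs) (j : J) (w : Ω) : |σ j w| = 1 := by
  rcases h.or j w with h1 | h1 <;> rw [h1] <;> norm_num

lemma KSites.bm (h : KSites μ S σ K Hs) (j : J) : Bm (σ j) :=
  Bm.of (h.meas j) fun w => (h.abs j w).le

/-- `E_x [s_i³ | K, s¹, s²]` -/
noncomputable def Ai (μ : Measure Ω) (k : ℝ) (S : ι → Ω → ℝ) (x : ℝ) (σ : J → Ω → ℝ)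
    (K : Finset ι) (i : J) (q : (Ω × Ω) × (ι → ℝ)) : ℝ :=
  cx (g1 ι) K (W2 μ k S x q.1) (avm μ k S (σ i)) q.2

/-- the indicator of `s_i¹ ≠ s_i²` -/
noncomputable def ui (σ : J → Ω → ℝ) (i : J) (q : (Ω × Ω) × (ι → ℝ)) : ℝ :=
  (1 - σ i q.1.1 * σ i q.1.2) / 2

/-- `(s_i¹ - s_i²) / 2` -/
noncomputable def di (σ : J → Ω → ℝ) (i : J) (q : (Ω × Ω) × (ι → ℝ)) : ℝ :=
  (σ i q.1.1 - σ i q.1.2) / 2

lemma bm_Ai (hG : GM μ S M0) (k x : ℝ) (h : KSites μ S σ K Hs) (i : J) :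
    Bm (Ai μ k S x σ K i) := bm_cx2 hG k x K (bm hG k (h.bm i))

lemma abs_Ai (hG : GM μ S M0) (k x : ℝ) (h : KSites μ S σ K Hs) (i : J)
    (q : (Ω × Ω) × (ι → ℝ)) : |Ai μ k S x σ K i q| ≤ 1 :=
  (wt_W2 hG k x q.1).abs_cx_le K (bm hG k (h.bm i))
    (fun z => hG.abs_av_le k (h.meas i) (fun w => (h.abs i w).le) z) q.2

lemma dep_Ai (i : J) (p : Ω × Ω) : H646.Dep K fun z => Ai μ k S x σ K i (p, z) :=
  dep_cx (μ := g1 ι) (w := W2 μ k S x p) (Ψ := avm μ k S (σ i)) K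

lemma bm_ui (h : KSites μ S σ K Hs) (i : J) : Bm (ui (ι := ι) σ i) := by
  have h1 := ((Bm.const (Ω := (Ω × Ω) × (ι → ℝ)) 1).sub
    ((bm_1 (ι := ι) (h.bm i)).mul (bm_2 (h.bm i)))).const_mul (1 / 2)
  have h2 : ui (ι := ι) σ i = fun q : (Ω × Ω) × (ι → ℝ) =>
      1 / 2 * (1 - σ i q.1.1 * σ i q.1.2) := by
    funext q
    unfold ui
    ring
  rw [h2]
  exact h1

lemma bm_di (h : KSites μ S σ K Hs) (i : J) : Bm (di (ι := ι) σ i) := by
  have h1 := ((bm_1 (ι := ι) (h.bm i)).sub (bm_2 (h.bm i))).const_mul (1 / 2)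
  have h2 : di (ι := ι) σ i = fun q : (Ω × Ω) × (ι → ℝ) =>
      1 / 2 * (σ i q.1.1 - σ i q.1.2) := by
    funext q
    unfold di
    ring
  rw [h2]
  exact h1

lemma ui_or (h : KSites μ S σ K Hs) (i : J) (q : (Ω × Ω) × (ι → ℝ)) :
    (ui σ i q = 0 ∧ di σ i q = 0) ∨ (ui σ i q = 1 ∧ di σ i q = σ i q.1.1 ∧
      σ i q.1.2 = -σ i q.1.1) := by
  unfold ui di
  rcases h.or i q.1.1 with h1 | h1 <;> rcases h.or i q.1.2 with h2 | h2 <;>
    rw [h1, h2] <;> norm_num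

lemma ui_nonneg (h : KSites μ S σ K Hs) (i : J) (q : (Ω × Ω) × (ι → ℝ)) : 0 ≤ ui σ i q := by
  rcases ui_or h i q with h1 | h1 <;> rw [h1.1]
  exact zero_le_one

lemma abs_di (h : KSites μ S σ K Hs) (i : J) (q : (Ω × Ω) × (ι → ℝ)) : |di σ i q| = ui σ i q := by
  rcases ui_or h i q with h1 | h1
  · rw [h1.1, h1.2, abs_zero]
  · rw [h1.1, h1.2.1, h.abs]

/-! ### the common value -/

lemma cx_neg' (hG : GM μ S M0) (k x : ℝ) (K : Finset ι) {f : Ω → ℝ} (p : Ω × Ω) (z : ι → ℝ) :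
    cx (g1 ι) K (W2 μ k S x p) (avm μ k S fun w => -f w) z =
      -cx (g1 ι) K (W2 μ k S x p) (avm μ k S f) z := by
  have h1 : (avm μ k S fun w => -f w) = fun z => (-1) * avm μ k S f z := by
    funext z
    rw [← H196.av_mul]
    congr 1
    funext w
    ring
  rw [h1, cx_const_mul (wt_W2 hG k x p)]
  ring

lemma flip_A (hG : GM μ S M0) (k x : ℝ) {i : J} {ε : ι → ℝ} {T : Ω → Ω}
    (hT : HSym μ S K 1 ε T) (hf : ∀ j w, σ j (T w) = if j = i then -σ j w else σ j w) (j : J)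
    (p : Ω × Ω) (z : ι → ℝ) : Ai μ k S x σ K j ((T p.1, T p.2), z) =
      if j = i then -Ai μ k S x σ K j (p, z) else Ai μ k S x σ K j (p, z) := by
  unfold Ai
  simp only
  rw [hT.cx]
  by_cases hj : j = i
  · rw [if_pos hj]
    have h1 : (fun w => σ j (T w)) = fun w => -σ j w := by
      funext w
      rw [hf, if_pos hj]
    rw [h1, cx_neg' hG]
  · rw [if_neg hj]
    have h1 : (fun w => σ j (T w)) = σ j := by
      funext w
      rw [hf, if_neg hj]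
    rw [h1]

lemma common1 (k x : ℝ) (h : KSites μ S σ K Hs) {i j : J} (hi : i ∈ Hs) (hj : j ∈ Hs)
    (p : Ω × Ω) (z : ι → ℝ) (h1 : σ i p.1 = σ j p.1) (h2 : σ i p.2 = σ j p.2) :
    Ai μ k S x σ K i (p, z) = Ai μ k S x σ K j (p, z) := by
  obtain ⟨c, ε, T, hT, hf, hfix⟩ := h.swap i hi j hj
  have h3 : (T p.1, T p.2) = p := by rw [hfix _ h1, hfix _ h2]
  have h4 := hT.cx k x (σ i) p z
  rw [h3] at h4
  unfold Ai
  simp only
  rw [h4]
  have h5 : (fun w => σ i (T w)) = σ j := by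
    funext w
    rw [hf, Equiv.swap_apply_left]
  rw [h5]

/-- **For hidden sites with `s_i¹ ≠ s_i²`, the number `s_i¹ E_x [s_i³ | K, s¹, s²]` is the
same.** -/
theorem common (hG : GM μ S M0) (k x : ℝ) (h : KSites μ S σ K Hs) {i j : J} (hi : i ∈ Hs)
    (hj : j ∈ Hs) (p : Ω × Ω) (z : ι → ℝ) (h1 : σ i p.2 = -σ i p.1) (h2 : σ j p.2 = -σ j p.1) :
    σ i p.1 * Ai μ k S x σ K i (p, z) = σ j p.1 * Ai μ k S x σ K j (p, z) := by
  by_cases h3 : σ i p.1 = σ j p.1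
  · rw [common1 k x h hi hj p z h3 (by rw [h1, h2, h3]), h3]
  · have h4 : σ j p.1 = -σ i p.1 := by
      rcases h.or i p.1 with a | a <;> rcases h.or j p.1 with b | b
      · exact absurd (a.trans b.symm) h3
      · rw [a, b]
      · rw [a, b, neg_neg]
      · exact absurd (a.trans b.symm) h3
    have hne : i ≠ j := by
      rintro rfl
      exact h3 rfl
    obtain ⟨ε, T, hT, hf⟩ := h.flip j hj
    have e1 := common1 k x h hi hj (T p.1, T p.2) z
      (by rw [hf, hf, if_neg hne, if_pos rfl, h4, neg_neg])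
      (by rw [hf, hf, if_neg hne, if_pos rfl, h1, h2, h4, neg_neg])
    rw [flip_A hG k x hT hf, flip_A hG k x hT hf, if_neg hne, if_pos rfl] at e1
    rw [e1, h4]
    ring

/-- the common value -/
noncomputable def aa (μ : Measure Ω) (k : ℝ) (S : ι → Ω → ℝ) (x : ℝ) (σ : J → Ω → ℝ)
    (K : Finset ι) (Hs : Finset J) (q : (Ω × Ω) × (ι → ℝ)) : ℝ :=
  (∑ i ∈ Hs, di σ i q * Ai μ k S x σ K i q) / ∑ i ∈ Hs, ui σ i q

lemma aa_bd (hG : GM μ S M0) (k x : ℝ) (h : KSites μ S σ K Hs) (q : (Ω × Ω) × (ι → ℝ)) :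
    |aa μ k S x σ K Hs q| ≤ 1 := by
  unfold aa
  have h0 : 0 ≤ ∑ i ∈ Hs, ui σ i q := Finset.sum_nonneg fun i _ => ui_nonneg h i q
  rw [abs_div, abs_of_nonneg h0]
  refine div_le_one_of_le₀ ?_ h0
  refine (Finset.abs_sum_le_sum_abs _ _).trans (Finset.sum_le_sum fun i _ => ?_)
  rw [abs_mul, abs_di h]
  calc ui σ i q * |Ai μ k S x σ K i q| ≤ ui σ i q * 1 :=
        mul_le_mul_of_nonneg_left (abs_Ai hG k x h i q) (ui_nonneg h i q)
    _ = ui σ i q := mul_one _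

lemma aa_bm (hG : GM μ S M0) (k x : ℝ) (h : KSites μ S σ K Hs) : Bm (aa μ k S x σ K Hs) := by
  refine ⟨?_, 1, zero_le_one, aa_bd hG k x h⟩
  unfold aa
  exact (Finset.measurable_sum _ fun i _ => (bm_di h i).1.mul (bm_Ai hG k x h i).1).div
    (Finset.measurable_sum _ fun i _ => (bm_ui h i).1)

lemma aa_dep (p : Ω × Ω) : H646.Dep K fun z => aa μ k S x σ K Hs (p, z) := by
  intro z z'
  unfold aa
  have h1 : ∀ i, Ai μ k S x σ K i (p, glue K z z') = Ai μ k S x σ K i (p, z) :=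
    fun i => dep_Ai i p z z'
  simp only [h1]
  rfl

/-- **the pointwise identity** -/
theorem ptw (hG : GM μ S M0) (k x : ℝ) (h : KSites μ S σ K Hs) (q : (Ω × Ω) × (ι → ℝ)) :
    ∑ i ∈ Hs, ui σ i q * Ai μ k S x σ K i q ^ 2 =
      ∑ i ∈ Hs, (aa μ k S x σ K Hs q * di σ i q) * Ai μ k S x σ K i q := by
  by_cases h0 : ∑ i ∈ Hs, ui σ i q = 0
  · have h1 := (Finset.sum_eq_zero_iff_of_nonneg fun i _ => ui_nonneg h i q).1 h0
    have h2 : ∀ i ∈ Hs, di σ i q = 0 := fun i hi => by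
      rw [← abs_eq_zero, abs_di h, h1 i hi]
    rw [Finset.sum_eq_zero fun i hi => by rw [h1 i hi, zero_mul],
      Finset.sum_eq_zero fun i hi => by rw [h2 i hi, mul_zero, zero_mul]]
  · obtain ⟨i0, hi0, hu⟩ := Finset.exists_ne_zero_of_sum_ne_zero h0
    have hu1 : di σ i0 q = σ i0 q.1.1 ∧ σ i0 q.1.2 = -σ i0 q.1.1 := by
      rcases ui_or h i0 q with h1 | h1
      · exact absurd h1.1 hu
      · exact h1.2
    set v := σ i0 q.1.1 * Ai μ k S x σ K i0 q with hv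
    have e1 : ∀ i ∈ Hs, di σ i q * Ai μ k S x σ K i q = ui σ i q * v := by
      intro i hi
      rcases ui_or h i q with h1 | h1
      · rw [h1.1, h1.2, zero_mul, zero_mul]
      · rw [h1.1, h1.2.1, one_mul, hv]
        exact common hG k x h hi hi0 q.1 q.2 h1.2.2 hu1.2
    have e2 : ∀ i ∈ Hs, ui σ i q * Ai μ k S x σ K i q ^ 2 = ui σ i q * v ^ 2 := by
      intro i hi
      rcases ui_or h i q with h1 | h1
      · rw [h1.1, zero_mul, zero_mul]
      · have h3 : σ i q.1.1 * Ai μ k S x σ K i q = v :=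
          common hG k x h hi hi0 q.1 q.2 h1.2.2 hu1.2
        rw [← h3, mul_pow, pow_two (σ i q.1.1), h.sq, one_mul]
    have e3 : aa μ k S x σ K Hs q = v := by
      unfold aa
      rw [Finset.sum_congr rfl e1, ← Finset.sum_mul, mul_comm, mul_div_assoc, div_self h0,
        mul_one]
    rw [Finset.sum_congr rfl e2, ← Finset.sum_mul]
    have e4 : ∀ i ∈ Hs, (aa μ k S x σ K Hs q * di σ i q) * Ai μ k S x σ K i q =
        ui σ i q * v ^ 2 := by
      intro i hi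
      rw [e3, mul_assoc, e1 i hi]
      ring
    rw [Finset.sum_congr rfl e4, ← Finset.sum_mul]

/-! ### hidden sites are exchangeable -/

lemma sw_E2 (hG : GM μ S M0) (k x : ℝ) (h : KSites μ S σ K Hs) {i j : J} (hi : i ∈ Hs)
    (hj : j ∈ Hs) : E2 μ k S x (fun q => ui σ i q * Ai μ k S x σ K i q ^ 2) =
      E2 μ k S x (fun q => ui σ j q * Ai μ k S x σ K j q ^ 2) := by
  obtain ⟨c, ε, T, hT, hf, _⟩ := h.swap i hi j hj
  have hm : Measurable fun q : (Ω × Ω) × (ι → ℝ) => ui σ i q * Ai μ k S x σ K i q ^ 2 :=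
    (bm_ui h i).1.mul ((bm_Ai hG k x h i).1.pow_const 2)
  rw [← E2_sym hG k x hT.sym hm]
  congr 1
  funext q
  have h1 : ui σ i ((T q.1.1, T q.1.2), ac c ε q.2) = ui σ j q := by
    unfold ui
    simp only [hf, Equiv.swap_apply_left]
  have h2 : Ai μ k S x σ K i ((T q.1.1, T q.1.2), ac c ε q.2) = Ai μ k S x σ K j q := by
    unfold Ai
    simp only
    rw [← (cx_ac2 c hT.sym.sq (W2_sym hT.sym k x q.1) hT.mem (avm μ k S (σ i)) q.2).1]
    have h3 : (fun z => avm μ k S (σ i) (ac c ε z)) = avm μ k S (σ j) := by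
      funext z
      rw [hT.sym.av]
      simp only [hf, Equiv.swap_apply_left]
    rw [h3]
  rw [h1, h2]

/-- the sum over the hidden sites, the third replica not averaged -/
theorem card_E2 (hG : GM μ S M0) (k x : ℝ) (h : KSites μ S σ K Hs) {i0 : J} (hi : i0 ∈ Hs) :
    Hs.card * E2 μ k S x (fun q => ui σ i0 q * Ai μ k S x σ K i0 q ^ 2) =
      E2 μ k S x (fun q => aa μ k S x σ K Hs q * ∑ i ∈ Hs, di σ i q * avm μ k S (σ i) q.2) := by
  have h1 : (Hs.card : ℝ) * E2 μ k S x (fun q => ui σ i0 q * Ai μ k S x σ K i0 q ^ 2) =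
      ∑ i ∈ Hs, E2 μ k S x (fun q => ui σ i q * Ai μ k S x σ K i q ^ 2) := by
    rw [Finset.sum_congr rfl fun i hi' => sw_E2 hG k x h hi' hi, Finset.sum_const, nsmul_eq_mul]
  have hb := aa_bm hG k x h
  rw [h1, ← E2_sum hG k x Hs fun i _ => (bm_ui h i).mul ((bm_Ai hG k x h i).pow 2)]
  simp only [ptw hG k x h]
  rw [E2_sum hG k x Hs fun i _ => (hb.mul (bm_di h i)).mul (bm_Ai hG k x h i)]
  have h2 : ∀ i ∈ Hs, E2 μ k S x (fun q => (aa μ k S x σ K Hs q * di σ i q) *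
      Ai μ k S x σ K i q) = E2 μ k S x (fun q => (aa μ k S x σ K Hs q * di σ i q) *
        avm μ k S (σ i) q.2) := by
    intro i _
    refine E2_cx hG k x (hb.mul (bm_di h i)) (fun p z z' => ?_) (bm hG k (h.bm i))
    have h3 := aa_dep (μ := μ) (k := k) (S := S) (x := x) (σ := σ) (K := K) (Hs := Hs) p z z'
    simp only at h3 ⊢
    rw [h3]
    rfl
  rw [Finset.sum_congr rfl h2, ← E2_sum hG k x Hs fun i _ =>
    (hb.mul (bm_di h i)).mul (bm_z (bm hG k (h.bm i)))]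
  congr 1
  funext q
  rw [Finset.mul_sum]
  exact Finset.sum_congr rfl fun i _ => by ring

end Vale.Agent.P146.H355
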