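import Vale.Agent.P146.H355.K3Fin
import Vale.Agent.P146.H292.HidA

/-!
(K3) for the amplitude ensemble, no hypothesis left.
-/

open MeasureTheory ProbabilityTheory Filter Topology

namespace Vale.Agent.P146.H355

open Vale.Agent.P157.Lv Vale.Agent.P146.H425 Vale.Agent.P146.H325 Vale.Agent.P146.H646
  Vale.Agent.P146.H196 Vale.Agent.P146.H347 Vale.Agent.P146.H475 Vale.Agent.P146.H816

set_option linter.unusedSectionVars false

variable {n : ℕ} {LB LF : Type} [Fintype LB] [DecidableEq LB] [Fintype LF] [DecidableEq LF]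

/-- `κ_F` of the amplitude ensemble at the site `i` -/
noncomputable def kapA (n : ℕ) {LB LF : Type} [Fintype LB] [DecidableEq LB] [Fintype LF]
    [DecidableEq LF] (b : ℝ) (cB : LB → ℝ) (cF : LF → ℝ) (s η lam c x : ℝ)
    (K : Finset (Co n LB LF)) (i : Fin n) : (Co n LB LF → ℝ) → ℝ :=
  kapF (muA (Xs n) lam η c) 1 (Sm b cB cF s η) x K fun w => sp w.2 i

/-- **(K3) for the amplitude ensemble**, every `b`, general revealed sets `Kg SB SF G`, hidden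
sites `Hs`, a hidden plain level `l0`. -/
theorem k3_A {lam : ℝ} (hl : 0 < lam) {η : ℝ} (hη : 0 ≤ η) (c b : ℝ) (cB : LB → ℝ)
    (cF : LF → ℝ) (s : ℝ) {x b2 : ℝ} (hx0 : 0 ≤ x) (hb0 : 0 < b2) (hx : x ≤ cK b2 / 4)
    (hb : b ^ 2 * ∑ l, cB l ^ 2 + ∑ l, cF l ^ 2 + (1 + η) ^ 2 * s ^ 2 ≤ b2)
    {l0 : LF} (hl0 : cF l0 ≠ 0) {SB : LB → Finset (Fin n)} {SF : LF → Finset (Fin n)}
    {G Hs : Finset (Fin n)} (hB : ∀ l, Disjoint (SB l) Hs) (hF : ∀ l, Disjoint (SF l) Hs)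
    (hGs : Disjoint G Hs) (h0 : SF l0 = ∅) {i0 : Fin n} (hi : i0 ∈ Hs) :
    ex (g1 _) (Zxm (muA (Xs n) lam η c) 1 (Sm b cB cF s η) x)
      (fun z => if -cK b2 / 2 < kapA n b cB cF s η lam c x (Kg SB SF G) i0 z then 1 else 0) ≤
      32 / cK b2 * (1 / √(Hs.card : ℝ) + (1 / (|cF l0| * √n) + η * |s| / |cF l0|)) := by
  have hG := gmA (n := n) b cB cF s hl hη c
  have hc := cK_pos hb0
  have hc4 := cK_le hb0
  have hd : ∀ {A : Finset (Fin n)}, Disjoint A Hs → i0 ∉ A := fun hA h1 =>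
    Finset.disjoint_left.1 hA h1 hi
  have h1 := k3_bad (J := Fin n) (σ := fun j (w : ℝ × Xs n) => sp w.2 j) (i0 := i0) hG
    (flipA hl η c b cB cF s i0) 1 hx0 hb0 hx
    (fun w => (le_of_eq (by simp)).trans ((sum_all hη b cB cF s i0 w).trans hb))
    (Kg_sub (fun l => hd (hB l)) (fun l => hd (hF l)) (hd hGs))
    (ksites_g hl η c b cB cF s hB hF hGs)
  refine h1.trans (mul_le_mul_of_nonneg_left ?_ (by positivity))
  exact H292.ex_Ma_A hl hη c b cB cF s (by linarith) hl0 hB hF hGs h0 hi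

/-- **(K3) for the amplitude ensemble**, the block form -/
theorem k3_K {lam : ℝ} (hl : 0 < lam) {η : ℝ} (hη : 0 ≤ η) (c b : ℝ) (cB : LB → ℝ)
    (cF : LF → ℝ) (s : ℝ) {x b2 : ℝ} (hx0 : 0 ≤ x) (hb0 : 0 < b2) (hx : x ≤ cK b2 / 4)
    (hb : b ^ 2 * ∑ l, cB l ^ 2 + ∑ l, cF l ^ 2 + (1 + η) ^ 2 * s ^ 2 ≤ b2)
    {l0 : LF} (hl0 : cF l0 ≠ 0) {A : Finset (Fin n)} {BL : Finset LB} {FL : Finset LF}
    (h0 : l0 ∉ FL) {i0 : Fin n} (hi : i0 ∉ A) :
    ex (g1 _) (Zxm (muA (Xs n) lam η c) 1 (Sm b cB cF s η) x)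
      (fun z => if -cK b2 / 2 < kapA n b cB cF s η lam c x (Kset A BL FL) i0 z
        then 1 else 0) ≤
      32 / cK b2 * (1 / √(Aᶜ.card : ℝ) + (1 / (|cF l0| * √n) + η * |s| / |cF l0|)) := by
  have hG := gmA (n := n) b cB cF s hl hη c
  have hc := cK_pos hb0
  have hc4 := cK_le hb0
  have h1 := k3_bad (J := Fin n) (σ := fun j (w : ℝ × Xs n) => sp w.2 j) (i0 := i0) hG
    (flipA hl η c b cB cF s i0) 1 hx0 hb0 hx
    (fun w => (le_of_eq (by simp)).trans ((sum_all hη b cB cF s i0 w).trans hb))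
    (Kset_sub hi BL FL) (ksites hl η c b cB cF s A BL FL)
  refine h1.trans (mul_le_mul_of_nonneg_left ?_ (by positivity))
  exact H292.ex_Ma_K hl hη c b cB cF s (by linarith) hl0 h0 hi

end Vale.Agent.P146.H355
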