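import Vale.Agent.P146.H355.K3U
import Vale.Agent.P146.H292.HidU

/-!
(K3) in the ensemble `U`, no hypothesis left.
-/

open MeasureTheory ProbabilityTheory Filter Topology

namespace Vale.Agent.P146.H355

open Vale.Agent.P157.Lv Vale.Agent.P146.H425 Vale.Agent.P146.H325 Vale.Agent.P146.H646
  Vale.Agent.P146.H196 Vale.Agent.P146.H347 Vale.Agent.P146.H475 Vale.Agent.P146.H816
  Vale.Agent.P146.H281.U

set_option linter.unusedSectionVars false

variable {Th : Type} [MeasurableSpace Th] {n : ℕ} {LB LF : Type} [Fintype LB] [DecidableEq LB]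
  [Fintype LF] [DecidableEq LF]

/-- `κ_F` of the ensemble `U` at the site `i` -/
noncomputable def kapU {Th : Type} [MeasurableSpace Th] (ν : Measure Th) (n : ℕ) {LB LF : Type}
    [Fintype LB] [DecidableEq LB] [Fintype LF] [DecidableEq LF] (b : ℝ) (cB : LB → ℝ)
    (cF : LF → ℝ) (a : LF → Th → ℝ) (x : ℝ) (K : Finset (Co n LB LF)) (i : Fin n) :
    (Co n LB LF → ℝ) → ℝ :=
  kapF (muU ν n) 1 (SU b cB cF a) x K fun w => sp w.2 i

/-- **(K3) for the ensemble `U`**, every `b`, general revealed sets `Kg SB SF G`, hidden sites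
`Hs`, a hidden plain level `l0`, `P` = plain levels; the other levels have amplitudes in
`[1 - η, 1 + η]` and may be revealed or hidden. -/
theorem k3_U {ν : Measure Th} (hν : IsFiniteMeasure ν) (hν0 : ν ≠ 0) {a : LF → Th → ℝ} {η : ℝ}
    (hA : AmU a η) (b : ℝ) (cB : LB → ℝ) (cF : LF → ℝ) {x b2 : ℝ} (hx0 : 0 ≤ x) (hb0 : 0 < b2)
    (hx : x ≤ cK b2 / 4) (hb : b ^ 2 * ∑ l, cB l ^ 2 + (1 + η) ^ 2 * ∑ l, cF l ^ 2 ≤ b2)
    {P : Finset LF} (hP : ∀ l ∈ P, ∀ θ, a l θ = 1) {l0 : LF} (hl0 : l0 ∈ P) (hc : cF l0 ≠ 0)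
    {SB : LB → Finset (Fin n)} {SF : LF → Finset (Fin n)} {G Hs : Finset (Fin n)}
    (hB : ∀ l, Disjoint (SB l) Hs) (hF : ∀ l, Disjoint (SF l) Hs) (hGs : Disjoint G Hs)
    (h0 : SF l0 = ∅) {i0 : Fin n} (hi : i0 ∈ Hs) :
    ex (g1 _) (Zxm (muU ν n) 1 (SU b cB cF a) x)
      (fun z => if -cK b2 / 2 < kapU ν n b cB cF a x (Kg SB SF G) i0 z then 1 else 0) ≤
      32 / cK b2 * (1 / √(Hs.card : ℝ) + (1 / (|cF l0| * √n) +
        2 * η * √(∑ l ∈ Pᶜ, cF l ^ 2) / √(∑ l ∈ P, cF l ^ 2))) := by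
  have hG := gmU (n := n) (LB := LB) (LF := LF) b cB cF η hν hν0 hA
  have hc' := cK_pos hb0
  have hc4 := cK_le hb0
  have hd : ∀ {A : Finset (Fin n)}, Disjoint A Hs → i0 ∉ A := fun hA h1 =>
    Finset.disjoint_left.1 hA h1 hi
  have hks := ksitesU_g (n := n) hν b cB cF a hB hF hGs
  have h1 := k3_bad (J := Fin n) (σ := fun j (w : Th × Xs n) => sp w.2 j) (i0 := i0) hG
    (flipU hν b cB cF a i0) 1 hx0 hb0 hx
    (fun w => (le_of_eq (by simp)).trans ((sum_allU hA b cB cF i0 w).trans hb))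
    (Kg_sub (fun l => hd (hB l)) (fun l => hd (hF l)) (hd hGs)) hks
  refine h1.trans (mul_le_mul_of_nonneg_left ?_ (by positivity))
  refine H292.ex_Ma_U hν hν0 hA (by linarith) hP hl0 hc (fun j hj => ?_) hks hi
  rw [fd_mem, h0] at hj
  simp at hj

/-- **(K3) for the ensemble `U`**, the block form: `Kset A BL FL` with a hidden plain level `l0`;
`FL` may contain plain and modulated levels. -/
theorem k3_KU {ν : Measure Th} (hν : IsFiniteMeasure ν) (hν0 : ν ≠ 0) {a : LF → Th → ℝ} {η : ℝ}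
    (hA : AmU a η) (b : ℝ) (cB : LB → ℝ) (cF : LF → ℝ) {x b2 : ℝ} (hx0 : 0 ≤ x) (hb0 : 0 < b2)
    (hx : x ≤ cK b2 / 4) (hb : b ^ 2 * ∑ l, cB l ^ 2 + (1 + η) ^ 2 * ∑ l, cF l ^ 2 ≤ b2)
    {P : Finset LF} (hP : ∀ l ∈ P, ∀ θ, a l θ = 1) {l0 : LF} (hl0 : l0 ∈ P) (hc : cF l0 ≠ 0)
    {A : Finset (Fin n)} {BL : Finset LB} {FL : Finset LF} (h0 : l0 ∉ FL) {i0 : Fin n}
    (hi : i0 ∉ A) :
    ex (g1 _) (Zxm (muU ν n) 1 (SU b cB cF a) x)
      (fun z => if -cK b2 / 2 < kapU ν n b cB cF a x (Kset A BL FL) i0 z then 1 else 0) ≤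
      32 / cK b2 * (1 / √(Aᶜ.card : ℝ) + (1 / (|cF l0| * √n) +
        2 * η * √(∑ l ∈ Pᶜ, cF l ^ 2) / √(∑ l ∈ P, cF l ^ 2))) := by
  have hG := gmU (n := n) (LB := LB) (LF := LF) b cB cF η hν hν0 hA
  have hc' := cK_pos hb0
  have hc4 := cK_le hb0
  have hks := ksitesU (n := n) hν b cB cF a A BL FL
  have h1 := k3_bad (J := Fin n) (σ := fun j (w : Th × Xs n) => sp w.2 j) (i0 := i0) hG
    (flipU hν b cB cF a i0) 1 hx0 hb0 hx
    (fun w => (le_of_eq (by simp)).trans ((sum_allU hA b cB cF i0 w).trans hb))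
    (Kset_sub hi BL FL) hks
  refine h1.trans (mul_le_mul_of_nonneg_left ?_ (by positivity))
  refine H292.ex_Ma_U hν hν0 hA (by linarith) hP hl0 hc (fun j hj => ?_) hks
    (Finset.mem_compl.2 hi)
  rw [fd_memK] at hj
  exact h0 hj.2

/-- measurability and bounds of `kapU` -/
lemma kapU_bm {ν : Measure Th} (hν : IsFiniteMeasure ν) (hν0 : ν ≠ 0) {a : LF → Th → ℝ} {η : ℝ}
    (hA : AmU a η) (b : ℝ) (cB : LB → ℝ) (cF : LF → ℝ) (x : ℝ) (K : Finset (Co n LB LF))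
    (i : Fin n) : BM (kapU ν n b cB cF a x K i) := by
  have hG := gmU (n := n) (LB := LB) (LF := LF) b cB cF η hν hν0 hA
  have hs : Bm fun w : Th × Xs n => sp w.2 i := (ksitesU hν b cB cF a ∅ ∅ ∅).bm i
  exact (wt hG 1 x).bm_cx _ (bm_kf hG 1 hs)

lemma kapU_dep (ν : Measure Th) (b : ℝ) (cB : LB → ℝ) (cF : LF → ℝ) (a : LF → Th → ℝ) (x : ℝ)
    (K : Finset (Co n LB LF)) (i : Fin n) : H646.Dep K (kapU ν n b cB cF a x K i) :=
  dep_cx (μ := g1 _) (w := Zxm (muU ν n) 1 (SU b cB cF a) x) K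

end Vale.Agent.P146.H355
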