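import Vale.Agent.P146.H196.Gib2
import Vale.Agent.P146.H347.Mod1

/-!
Pairs of replicas conditionally on a set `K` of coordinates: `W2 x p` is the weight of the pair
`p`, `E_x [⟨f⟩ | K, p] = cx K (W2 x p) (avm f)`, and `Ma K f` is
`E_x [1(f(ω₁) ≠ f(ω₂)) E_x [f(ω₃) | K, ω₁, ω₂] ^ 2 | K]`.
-/

open MeasureTheory ProbabilityTheory Filter Topology

namespace Vale.Agent.P146.H355

open Vale.Agent.P157.Lv Vale.Agent.P146.H425 Vale.Agent.P146.H325 Vale.Agent.P146.R1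
  Vale.Agent.P146.H646 Vale.Agent.P146.H196 Vale.Agent.P146.H347

set_option linter.unusedSectionVars false

variable {ι : Type} [Fintype ι] [DecidableEq ι] {Ω : Type} [MeasurableSpace Ω]

/-- the weight of a pair of replicas -/
noncomputable def W2 (μ : Measure Ω) (k : ℝ) (S : ι → Ω → ℝ) (x : ℝ) (p : Ω × Ω)
    (z : ι → ℝ) : ℝ := Zxm μ k S (x - 2) z * (ezm k S z p.1 * ezm k S z p.2)

/-- `E_x [1(f(ω₁) ≠ f(ω₂)) E_x [f(ω₃) | K, ω₁, ω₂] ^ 2 | K]` for `f` with values in `{1, -1}` -/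
noncomputable def Ma (μ : Measure Ω) (k : ℝ) (S : ι → Ω → ℝ) (x : ℝ) (K : Finset ι)
    (f : Ω → ℝ) (z : ι → ℝ) : ℝ :=
  (∫ p, (1 - f p.1 * f p.2) / 2 * cx (g1 ι) K (W2 μ k S x p) (avm μ k S f) z ^ 2 *
    wn (g1 ι) K (W2 μ k S x p) z ∂(μ.prod μ)) / wn (g1 ι) K (Zxm μ k S x) z

variable {μ : Measure Ω} {k : ℝ} {S : ι → Ω → ℝ} {M0 x : ℝ}

lemma W2_pos (x : ℝ) (p : Ω × Ω) (z : ι → ℝ) : 0 < W2 μ k S x p z :=
  mul_pos (Zxm_pos _ _) (mul_pos (ezm_pos _ _) (ezm_pos _ _))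

lemma meas_ezm (hG : GM μ S M0) (k : ℝ) :
    Measurable fun q : Ω × (ι → ℝ) => ezm k S q.2 q.1 := by
  unfold ezm
  refine Measurable.exp (Measurable.const_mul (Finset.measurable_sum _ fun e _ => ?_) k)
  exact ((hG.meas e).comp measurable_fst).mul ((measurable_pi_apply e).comp measurable_snd)

lemma meas_W2 (hG : GM μ S M0) (k x : ℝ) :
    Measurable fun q : (Ω × Ω) × (ι → ℝ) => W2 μ k S x q.1 q.2 := by
  unfold W2
  have h1 := meas_ezm hG k
  refine ((hG.meas_Zx k (x - 2)).comp measurable_snd).mul (Measurable.mul ?_ ?_)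
  · exact h1.comp ((measurable_fst.comp measurable_fst).prodMk measurable_snd)
  · exact h1.comp ((measurable_snd.comp measurable_fst).prodMk measurable_snd)

lemma ezm_le (hG : GM μ S M0) (k : ℝ) (z : ι → ℝ) (w : Ω) :
    ezm k S z w ≤ Real.exp (Km ι k M0 * ‖z‖) :=
  Real.exp_le_exp.2 ((le_abs_self _).trans (hG.abs_E k z w))

/-- a uniform bound of the weights -/
lemma W2_bd (hG : GM μ S M0) (k x : ℝ) : ∃ C a : ℝ, 0 ≤ C ∧ 0 ≤ a ∧
    ∀ p z, W2 μ k S x p z ≤ C * Real.exp (a * ‖z‖) := by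
  obtain ⟨C, a, hC, ha, hb⟩ := (hG.eg_Zx k (x - 2)).bdd
  refine ⟨C, a + (Km ι k M0 + Km ι k M0), hC, ?_, fun p z => ?_⟩
  · have := hG.Km_nonneg k
    positivity
  · unfold W2
    have h1 : Zxm μ k S (x - 2) z ≤ C * Real.exp (a * ‖z‖) := (le_abs_self _).trans (hb z)
    have h2 : ezm k S z p.1 * ezm k S z p.2 ≤
        Real.exp (Km ι k M0 * ‖z‖) * Real.exp (Km ι k M0 * ‖z‖) :=
      mul_le_mul (ezm_le hG k z p.1) (ezm_le hG k z p.2) (ezm_pos _ _).le (Real.exp_pos _).le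
    have h3 : C * Real.exp ((a + (Km ι k M0 + Km ι k M0)) * ‖z‖) = C * Real.exp (a * ‖z‖) *
        (Real.exp (Km ι k M0 * ‖z‖) * Real.exp (Km ι k M0 * ‖z‖)) := by
      rw [add_mul, Real.exp_add, add_mul, Real.exp_add]
      ring
    rw [h3]
    exact mul_le_mul h1 h2 (mul_pos (ezm_pos _ _) (ezm_pos _ _)).le (by positivity)

lemma eg_W2 (hG : GM μ S M0) (k x : ℝ) (p : Ω × Ω) : EG (W2 μ k S x p) := by
  obtain ⟨C, a, hC, ha, hb⟩ := W2_bd hG k x
  have h1 : Measurable (W2 μ k S x p) :=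
    Measurable.comp (g := fun q : (Ω × Ω) × (ι → ℝ) => W2 μ k S x q.1 q.2)
      (f := fun z : ι → ℝ => (p, z)) (meas_W2 hG k x) (measurable_const.prodMk measurable_id)
  refine ⟨h1, C, a, hC, ha, fun z => ?_⟩
  rw [abs_of_pos (W2_pos x p z)]
  exact hb p z

/-- the weights of the pairs are admissible -/
theorem wt_W2 (hG : GM μ S M0) (k x : ℝ) (p : Ω × Ω) : Wt (g1 ι) (W2 μ k S x p) where
  pos := W2_pos x p
  meas := (eg_W2 hG k x p).meas
  sec K z := (eg_glue (eg_W2 hG k x p) K z).integrable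

/-- integrability of a bounded function against all the weights -/
lemma int_W2 (hG : GM μ S M0) (k x : ℝ) {Φ : (Ω × Ω) × (ι → ℝ) → ℝ} (hm : Measurable Φ)
    {C : ℝ} (hC : ∀ q, |Φ q| ≤ C) :
    Integrable (fun q : (Ω × Ω) × (ι → ℝ) => W2 μ k S x q.1 q.2 * Φ q)
      ((μ.prod μ).prod (gI ι)) := by
  have := hG.fin
  obtain ⟨D, a, hD, ha, hb⟩ := W2_bd hG k x
  have h1 : Integrable (fun z : ι → ℝ => D * Real.exp (a * ‖z‖) * |C|) (gI ι) := by
    have h2 : EG fun z : ι → ℝ => D * Real.exp (a * ‖z‖) * |C| := by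
      refine ⟨by fun_prop, D * |C|, a, by positivity, ha, fun z => ?_⟩
      rw [abs_of_nonneg (by positivity)]
      exact le_of_eq (by ring)
    exact h2.integrable
  have h2 : Integrable (fun q : (Ω × Ω) × (ι → ℝ) => (1 : ℝ) * (D * Real.exp (a * ‖q.2‖) * |C|))
      ((μ.prod μ).prod (gI ι)) := (integrable_const (1 : ℝ)).mul_prod h1
  refine h2.mono' ((meas_W2 hG k x).mul hm).aestronglyMeasurable
    (Filter.Eventually.of_forall fun q => ?_)
  rw [Real.norm_eq_abs, abs_mul, abs_of_pos (W2_pos x q.1 q.2), one_mul]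
  exact mul_le_mul (hb q.1 q.2) ((hC q).trans (le_abs_self C)) (abs_nonneg _) (by positivity)

/-- glued version -/
lemma int_W2_glue (hG : GM μ S M0) (k x : ℝ) (K : Finset ι) (z : ι → ℝ)
    {Φ : (Ω × Ω) × (ι → ℝ) → ℝ} (hm : Measurable Φ) {C : ℝ} (hC : ∀ q, |Φ q| ≤ C) :
    Integrable (fun q : (Ω × Ω) × (ι → ℝ) => W2 μ k S x q.1 (glue K z q.2) * Φ q)
      ((μ.prod μ).prod (gI ι)) := by
  have := hG.fin
  obtain ⟨D, a, hD, ha, hb⟩ := W2_bd hG k x
  have h1 : Integrable (fun z' : ι → ℝ => D * Real.exp (a * ‖z‖) * Real.exp (a * ‖z'‖) * |C|)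
      (gI ι) := by
    have h2 : EG fun z' : ι → ℝ => D * Real.exp (a * ‖z‖) * Real.exp (a * ‖z'‖) * |C| := by
      refine ⟨by fun_prop, D * Real.exp (a * ‖z‖) * |C|, a, by positivity, ha, fun z => ?_⟩
      rw [abs_of_nonneg (by positivity)]
      exact le_of_eq (by ring)
    exact h2.integrable
  have h2 : Integrable (fun q : (Ω × Ω) × (ι → ℝ) =>
      (1 : ℝ) * (D * Real.exp (a * ‖z‖) * Real.exp (a * ‖q.2‖) * |C|))
      ((μ.prod μ).prod (gI ι)) := (integrable_const (1 : ℝ)).mul_prod h1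
  have hm1 : Measurable fun q : (Ω × Ω) × (ι → ℝ) => W2 μ k S x q.1 (glue K z q.2) :=
    Measurable.comp (g := fun q : (Ω × Ω) × (ι → ℝ) => W2 μ k S x q.1 q.2)
      (f := fun q : (Ω × Ω) × (ι → ℝ) => (q.1, glue K z q.2)) (meas_W2 hG k x)
      (measurable_fst.prodMk ((measurable_glue_right K z).comp measurable_snd))
  refine h2.mono' (hm1.mul hm).aestronglyMeasurable (Filter.Eventually.of_forall fun q => ?_)
  rw [Real.norm_eq_abs, abs_mul, abs_of_pos (W2_pos x q.1 _), one_mul]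
  refine mul_le_mul ((hb q.1 _).trans ?_) ((hC q).trans (le_abs_self C)) (abs_nonneg _)
    (by positivity)
  rw [mul_assoc, ← Real.exp_add, ← mul_add]
  exact mul_le_mul_of_nonneg_left (Real.exp_le_exp.2
    (mul_le_mul_of_nonneg_left (norm_glue_le K z q.2) ha)) hD

/-- the integral over the pairs -/
lemma int_p (hG : GM μ S M0) (k x : ℝ) {f g : Ω → ℝ} (z : ι → ℝ) :
    ∫ p, W2 μ k S x p z * (f p.1 * g p.2) ∂(μ.prod μ) =
      Zxm μ k S x z * (avm μ k S f z * avm μ k S g z) := by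
  have := hG.fin
  have h1 : (fun p : Ω × Ω => W2 μ k S x p z * (f p.1 * g p.2)) =
      fun p : Ω × Ω => Zxm μ k S (x - 2) z * ((ezm k S z p.1 * f p.1) * (ezm k S z p.2 * g p.2)) := by
    funext p
    unfold W2
    ring
  have hZ := hG.Z_pos k z
  have h2 : Zxm μ k S x z = Zxm μ k S (x - 2) z * Zm μ k S z ^ 2 := by
    unfold Zxm lzm
    rw [show x * Real.log (Zm μ k S z) = (x - 2) * Real.log (Zm μ k S z) +
      2 * Real.log (Zm μ k S z) by ring, Real.exp_add]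
    congr 1
    rw [two_mul, Real.exp_add, Real.exp_log hZ, pow_two]
  rw [h1, integral_const_mul, integral_prod_mul (fun w => ezm k S z w * f w)
    (fun w => ezm k S z w * g w), h2]
  unfold avm
  field_simp

lemma int_p_one (hG : GM μ S M0) (k x : ℝ) (z : ι → ℝ) :
    ∫ p, W2 μ k S x p z ∂(μ.prod μ) = Zxm μ k S x z := by
  have h := int_p hG k x (f := fun _ => 1) (g := fun _ => 1) z
  simp only [mul_one, hG.av_one] at h
  exact h

/-- the marginal weights of the pairs sum up to the marginal weight -/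
lemma int_p_wn (hG : GM μ S M0) (k x : ℝ) (K : Finset ι) (z : ι → ℝ) :
    ∫ p, wn (g1 ι) K (W2 μ k S x p) z ∂(μ.prod μ) = wn (g1 ι) K (Zxm μ k S x) z := by
  have := hG.fin
  unfold wn
  have h := int_W2_glue hG k x K z (Φ := fun _ => 1) measurable_const (C := 1)
    (fun _ => by simp)
  simp only [mul_one] at h
  rw [integral_integral_swap h]
  refine integral_congr_ae (Filter.Eventually.of_forall fun z' => ?_)
  exact int_p_one hG k x _

/-! ### measurability of the conditional means in the pair -/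

lemma meas_num2 (hG : GM μ S M0) (k x : ℝ) (K : Finset ι) {Ψ : (ι → ℝ) → ℝ}
    (hΨ : Measurable Ψ) : Measurable fun q : (Ω × Ω) × (ι → ℝ) =>
      ∫ z', W2 μ k S x q.1 (glue K q.2 z') * Ψ (glue K q.2 z') ∂(gI ι) := by
  have h1 : Measurable fun r : ((Ω × Ω) × (ι → ℝ)) × (ι → ℝ) => glue K r.1.2 r.2 :=
    (measurable_glue K).comp ((measurable_snd.comp measurable_fst).prodMk measurable_snd)
  have h2 : StronglyMeasurable fun r : ((Ω × Ω) × (ι → ℝ)) × (ι → ℝ) =>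
      W2 μ k S x r.1.1 (glue K r.1.2 r.2) * Ψ (glue K r.1.2 r.2) :=
    ((Measurable.comp (g := fun q : (Ω × Ω) × (ι → ℝ) => W2 μ k S x q.1 q.2)
      (f := fun r : ((Ω × Ω) × (ι → ℝ)) × (ι → ℝ) => (r.1.1, glue K r.1.2 r.2))
      (meas_W2 hG k x) ((measurable_fst.comp measurable_fst).prodMk h1)).mul
      (hΨ.comp h1)).stronglyMeasurable
  exact h2.integral_prod_right.measurable

lemma meas_wn2 (hG : GM μ S M0) (k x : ℝ) (K : Finset ι) :
    Measurable fun q : (Ω × Ω) × (ι → ℝ) => wn (g1 ι) K (W2 μ k S x q.1) q.2 := by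
  have h := meas_num2 hG k x K (Ψ := fun _ => 1) measurable_const
  simp only [mul_one] at h
  exact h

lemma meas_cx2 (hG : GM μ S M0) (k x : ℝ) (K : Finset ι) {Ψ : (ι → ℝ) → ℝ}
    (hΨ : Measurable Ψ) : Measurable fun q : (Ω × Ω) × (ι → ℝ) =>
      cx (g1 ι) K (W2 μ k S x q.1) Ψ q.2 :=
  (meas_num2 hG k x K hΨ).div (meas_wn2 hG k x K)

/-! ### symmetries -/

variable {c : Equiv.Perm ι} {ε : ι → ℝ} {T : Ω → Ω} {K K' : Finset ι}

/-- equivariance of the conditional means when the weight changes too -/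
theorem cx_ac2 (c : Equiv.Perm ι) {ε : ι → ℝ} (hε : ∀ e, ε e * ε e = 1)
    {w w' : (ι → ℝ) → ℝ} (hw : ∀ z, w' (ac c ε z) = w z) (hK : ∀ e, c e ∈ K ↔ e ∈ K')
    (Ψ : (ι → ℝ) → ℝ) (z : ι → ℝ) :
    cx (g1 ι) K w (fun z => Ψ (ac c ε z)) z = cx (g1 ι) K' w' Ψ (ac c ε z) ∧
      wn (g1 ι) K w z = wn (g1 ι) K' w' (ac c ε z) := by
  have h2 : wn (g1 ι) K w z = wn (g1 ι) K' w' (ac c ε z) := by
    unfold wn
    rw [← integral_ac c hε (fun z' => w' (glue K' (ac c ε z) z'))]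
    refine integral_congr_ae (Filter.Eventually.of_forall fun z' => ?_)
    show w (glue K z z') = _
    rw [← hw (glue K z z'), ac_glue c ε hK]
  refine ⟨?_, h2⟩
  unfold cx
  rw [h2]
  congr 1
  rw [← integral_ac c hε (fun z' => w' (glue K' (ac c ε z) z') * Ψ (glue K' (ac c ε z) z'))]
  refine integral_congr_ae (Filter.Eventually.of_forall fun z' => ?_)
  show w (glue K z z') * Ψ (ac c ε (glue K z z')) = _
  rw [← hw (glue K z z'), ac_glue c ε hK]

lemma W2_sym (h : Sym μ S c ε T) (k x : ℝ) (p : Ω × Ω) (z : ι → ℝ) :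
    W2 μ k S x (T p.1, T p.2) (ac c ε z) = W2 μ k S x p z := by
  unfold W2
  rw [h.Zx, h.ez, h.ez]

/-- A symmetry which fixes the coordinates in `K`. -/
structure HSym (μ : Measure Ω) (S : ι → Ω → ℝ) (K : Finset ι) (c : Equiv.Perm ι) (ε : ι → ℝ)
    (T : Ω → Ω) : Prop where
  sym : Sym μ S c ε T
  fix : ∀ e ∈ K, c e = e
  one : ∀ e ∈ K, ε e = 1

lemma HSym.mem (h : HSym μ S K c ε T) (e : ι) : c e ∈ K ↔ e ∈ K := by
  constructor
  · intro h1
    have h2 := h.fix _ h1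
    have h3 : c e = e := c.injective h2
    rwa [h3] at h1
  · intro h1
    rw [h.fix e h1]
    exact h1

lemma HSym.wn (h : HSym μ S K c ε T) (k x : ℝ) (p : Ω × Ω) (z : ι → ℝ) :
    wn (g1 ι) K (W2 μ k S x (T p.1, T p.2)) z = wn (g1 ι) K (W2 μ k S x p) z := by
  rw [(cx_ac2 c h.sym.sq (W2_sym h.sym k x p) h.mem (fun _ => 1) z).2]
  refine (Dep.congr (dep_wn K) fun e he => ?_).symm
  rw [ac, h.one e he, h.fix e he, one_mul]

lemma HSym.cx (h : HSym μ S K c ε T) (k x : ℝ) (f : Ω → ℝ) (p : Ω × Ω) (z : ι → ℝ) :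
    cx (g1 ι) K (W2 μ k S x (T p.1, T p.2)) (avm μ k S f) z =
      cx (g1 ι) K (W2 μ k S x p) (avm μ k S fun w => f (T w)) z := by
  have h1 := (cx_ac2 c h.sym.sq (W2_sym h.sym k x p) h.mem (avm μ k S f) z).1
  simp only [h.sym.av] at h1
  rw [h1]
  refine (Dep.congr (dep_cx K) fun e he => ?_).symm
  rw [ac, h.one e he, h.fix e he, one_mul]

lemma mp_pair (h : Sym μ S c ε T) [SFinite μ] :
    MeasurePreserving (fun p : Ω × Ω => (T p.1, T p.2)) (μ.prod μ) (μ.prod μ) :=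
  h.mp.prod h.mp

end Vale.Agent.P146.H355
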