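import Vale.Agent.P146.H355.K3Inst
import Vale.Agent.P146.H116.K3H

/-!
(K3) in the probability form: off an event of small probability the conditional mean of
`-2 (1 - m ^ 2) (1 - 3 m ^ 2)` given the revealed coordinates is at most a negative constant.
-/

open MeasureTheory ProbabilityTheory Filter Topology

namespace Vale.Agent.P146.H355

open Vale.Agent.P157.Lv Vale.Agent.P146.H425 Vale.Agent.P146.H325 Vale.Agent.P146.H646
  Vale.Agent.P146.H196 Vale.Agent.P146.H347 Vale.Agent.P146.H475 Vale.Agent.P146.H816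

set_option linter.unusedSectionVars false

variable {ι : Type} [Fintype ι] [DecidableEq ι] {Ω : Type} [MeasurableSpace Ω]
  {J : Type} [Fintype J] [DecidableEq J]
  {μ : Measure Ω} {k : ℝ} {S : ι → Ω → ℝ} {M0 x : ℝ} {σ : J → Ω → ℝ} {K R : Finset ι}
  {Hs : Finset J} {τ : Ω → Ω}

/-- the constant of (K3) -/
noncomputable def cK (b2 : ℝ) : ℝ := H116.cR b2 * Real.exp (-(6 * b2))

lemma cK_pos {b2 : ℝ} (hb : 0 < b2) : 0 < cK b2 := mul_pos (H116.cR_pos hb) (Real.exp_pos _)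

lemma cK_le {b2 : ℝ} (hb : 0 < b2) : cK b2 ≤ 1 / 4 := by
  unfold cK
  have h1 : H116.cR b2 ≤ 1 / 4 := min_le_left _ _
  have h2 : Real.exp (-(6 * b2)) ≤ 1 := Real.exp_le_one_iff.2 (by linarith)
  have h3 := (H116.cR_pos hb).le
  calc H116.cR b2 * Real.exp (-(6 * b2)) ≤ H116.cR b2 * 1 := mul_le_mul_of_nonneg_left h2 h3
    _ ≤ 1 / 4 := by rw [mul_one]; exact h1

/-- the function `k0` of `H586` at the magnetisation of the site `i` -/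
noncomputable def kf (μ : Measure Ω) (k : ℝ) (S : ι → Ω → ℝ) (s : Ω → ℝ) (u : ι → ℝ) : ℝ :=
  -(2 * (1 - avm μ k S s u ^ 2) * (1 - 3 * avm μ k S s u ^ 2))

lemma bm_kf (hG : GM μ S M0) (k : ℝ) {s : Ω → ℝ} (hs : Bm s) : BM (kf μ k S s) := by
  have h0 : BM (avm μ k S s) := hG.bm_avm k hs
  have h1 : BM fun u => avm μ k S s u ^ 2 := by
    simpa only [pow_two] using h0.mul h0
  have h2 : BM fun u => 2 * (1 - avm μ k S s u ^ 2) * (1 - 3 * avm μ k S s u ^ 2) :=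
    ((BM.const 2).mul ((BM.const 1).sub h1)).mul ((BM.const 1).sub ((BM.const 3).mul h1))
  exact h2.neg

/-- `κ_F`, the conditional mean of `kf` -/
noncomputable def kapF (μ : Measure Ω) (k : ℝ) (S : ι → Ω → ℝ) (x : ℝ) (K : Finset ι)
    (s : Ω → ℝ) : (ι → ℝ) → ℝ := cx (g1 ι) K (Zxm μ k S x) (kf μ k S s)

lemma meas_kapF (hG : GM μ S M0) (k x : ℝ) (K : Finset ι) {s : Ω → ℝ} (hs : Bm s) :
    Measurable (kapF μ k S x K s) := ((wt hG k x).bm_cx K (bm_kf hG k hs)).1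

/-- pointwise form: `κ_F ≤ - cK + 8 Ma + x` -/
theorem kapF_le (hG : GM μ S M0) {i0 : J} (hF : H116.Flip μ S R τ (σ i0)) (k : ℝ) (hx0 : 0 ≤ x)
    (hx1 : x ≤ 1) {b2 : ℝ} (hb0 : 0 < b2) (hb : ∀ w, ∑ e ∈ R, (k * S e w) ^ 2 ≤ b2)
    (hK : K ⊆ Rᶜ) (h : KSites μ S σ K Hs) (z : ι → ℝ) :
    kapF μ k S x K (σ i0) z ≤ -cK b2 + 8 * Ma μ k S x K (σ i0) z + x := by
  have h1 := H116.k3_all hG hF k hx0 hx1 hb0 hb hK z
  have h2 := Ma_nonneg hG k x h i0 z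
  have h3 : 2 * (2 - x) ^ 2 * Ma μ k S x K (σ i0) z ≤ 8 * Ma μ k S x K (σ i0) z :=
    mul_le_mul_of_nonneg_right (by nlinarith) h2
  have h4 : kapF μ k S x K (σ i0) z = cx (g1 ι) K (Zxm μ k S x)
      (fun u => -(2 * (1 - avm μ k S (σ i0) u ^ 2) * (1 - 3 * avm μ k S (σ i0) u ^ 2))) z := rfl
  rw [h4]
  unfold cK
  linarith

/-- **(K3)**: `κ_F ≤ - cK / 2` off an event of probability `≤ (32 / cK) ex Ma`. -/
theorem k3_bad (hG : GM μ S M0) {i0 : J} (hF : H116.Flip μ S R τ (σ i0)) (k : ℝ) (hx0 : 0 ≤ x)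
    {b2 : ℝ} (hb0 : 0 < b2) (hx1 : x ≤ cK b2 / 4)
    (hb : ∀ w, ∑ e ∈ R, (k * S e w) ^ 2 ≤ b2) (hK : K ⊆ Rᶜ) (h : KSites μ S σ K Hs) :
    ex (g1 ι) (Zxm μ k S x)
      (fun z => if -cK b2 / 2 < kapF μ k S x K (σ i0) z then 1 else 0) ≤
      32 / cK b2 * ex (g1 ι) (Zxm μ k S x) (Ma μ k S x K (σ i0)) := by
  have hc := cK_pos hb0
  have hc4 := cK_le hb0
  have h1 := ex_bad hG k x h i0 (meas_kapF hG k x K (h.bm i0)) hc (by norm_num : (0 : ℝ) ≤ 8) hx1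
    (kapF_le hG hF k hx0 (by linarith) hb0 hb hK h)
  have e : 4 * 8 / cK b2 = 32 / cK b2 := by norm_num
  rw [e] at h1
  exact h1

/-- the same with the bound of `ex Ma` -/
theorem k3_prob (hG : GM μ S M0) {i0 : J} (hF : H116.Flip μ S R τ (σ i0)) (k : ℝ) (hx0 : 0 ≤ x)
    {b2 : ℝ} (hb0 : 0 < b2) (hx1 : x ≤ cK b2 / 4)
    (hb : ∀ w, ∑ e ∈ R, (k * S e w) ^ 2 ≤ b2) (hK : K ⊆ Rᶜ) (h : KSites μ S σ K Hs)
    (hi : i0 ∈ Hs) {δ : ℝ} (hδ : ∀ a : (Ω × Ω) × (ι → ℝ) → ℝ, Bm a → (∀ q, |a q| ≤ 1) →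
      (∀ p, H646.Dep K fun z => a (p, z)) →
      |E2 μ k S x (fun q => a q * ∑ j, (σ j q.1.1 - σ j q.1.2) / (Fintype.card J : ℝ) *
        avm μ k S (σ j) q.2)| ≤ δ * ∫ z, Zxm μ k S x z ∂(gI ι)) :
    ex (g1 ι) (Zxm μ k S x)
      (fun z => if -cK b2 / 2 < kapF μ k S x K (σ i0) z then 1 else 0) ≤
      32 / cK b2 * (1 / √(Hs.card : ℝ) + δ / 2) := by
  have hc := cK_pos hb0
  refine (k3_bad hG hF k hx0 hb0 hx1 hb hK h).trans ?_
  exact mul_le_mul_of_nonneg_left (ex_Ma_le hG k x h hi hδ) (by positivity)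

/-- the same for the mean square: `|kf| ≤ 4` on the bad event -/
lemma abs_kf_le (hG : GM μ S M0) (k : ℝ) {s : Ω → ℝ} (hs : Bm s) (h1 : ∀ w, |s w| ≤ 1)
    (u : ι → ℝ) : |kf μ k S s u| ≤ 4 := by
  have h2 := hG.abs_av_le k hs.1 h1 u
  have h3 : avm μ k S s u ^ 2 ≤ 1 := by
    rw [← sq_abs]
    nlinarith [abs_nonneg (avm μ k S s u)]
  have h4 := sq_nonneg (avm μ k S s u)
  unfold kf
  generalize avm μ k S s u ^ 2 = t at h3 h4
  rw [abs_le]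
  constructor <;> nlinarith

lemma abs_kapF_le (hG : GM μ S M0) (k x : ℝ) (K : Finset ι) {s : Ω → ℝ} (hs : Bm s)
    (h1 : ∀ w, |s w| ≤ 1) (z : ι → ℝ) : |kapF μ k S x K s z| ≤ 4 :=
  (wt hG k x).abs_cx_le K (bm_kf hG k hs) (abs_kf_le hG k hs h1) z

end Vale.Agent.P146.H355
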