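import Vale.Agent.P146.H355.K3Mk
import Vale.Agent.P146.H116.K3A

/-!
The flip of a site of the amplitude ensemble: `H116.Flip`, the bound of the energies of its row,
and the revealed sets which do not contain it.
-/

open MeasureTheory ProbabilityTheory Filter Topology

namespace Vale.Agent.P146.H355

open Vale.Agent.P157.Lv Vale.Agent.P146.H425 Vale.Agent.P146.H325 Vale.Agent.P146.H646
  Vale.Agent.P146.H196 Vale.Agent.P146.H347 Vale.Agent.P146.H475 Vale.Agent.P146.H816

set_option linter.unusedSectionVars false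

variable {n : ℕ} {LB LF : Type} [Fintype LB] [DecidableEq LB] [Fintype LF] [DecidableEq LF]

/-- all the coordinates which touch the site `i` -/
def Rall (LB LF : Type) [Fintype LB] [DecidableEq LB] [Fintype LF] [DecidableEq LF] (i : Fin n) :
    Finset (Co n LB LF) :=
  ((row i ×ˢ Finset.univ).disjSum ({i} ×ˢ Finset.univ)).disjSum {i}

lemma bd_all {i : Fin n} (p : Pair n) (l : LB) : bd LF p l ∈ Rall LB LF i ↔ p ∈ row i := by
  simp [Rall]

lemma fd_all {i j : Fin n} (l : LF) : fd LB j l ∈ Rall LB LF i ↔ j = i := by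
  simp [Rall, eq_comm]

lemma gd_all {i j : Fin n} : gd LB LF j ∈ Rall LB LF i ↔ j = i := by
  simp [Rall]

lemma eps_all {i : Fin n} (e : Co n LB LF) :
    eps LB LF (fl i) e = if e ∈ Rall LB LF i then -1 else 1 := by
  rcases e with (⟨p, l⟩ | ⟨j, l⟩) | j
  · rw [eps_bd]
    by_cases h : p ∈ row i
    · rw [if_pos ((bd_all p l).2 h), SkS_fl_row h]
    · rw [if_neg (fun h' => h ((bd_all p l).1 h')), SkS_fl h]
  · rw [eps_fd, sp_fl]
    by_cases h : j = i
    · rw [if_pos h, if_pos ((fd_all l).2 h)]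
    · rw [if_neg h, if_neg (fun h' => h ((fd_all l).1 h'))]
  · rw [eps_gd, sp_fl]
    by_cases h : j = i
    · rw [if_pos h, if_pos (gd_all.2 h)]
    · rw [if_neg h, if_neg (fun h' => h (gd_all.1 h'))]

/-- **the flip of the site `i`** -/
theorem flipA {lam : ℝ} (hl : 0 < lam) (η c b : ℝ) (cB : LB → ℝ) (cF : LF → ℝ) (s : ℝ)
    (i : Fin n) : H116.Flip (muA (Xs n) lam η c) (Sm b cB cF s η) (Rall LB LF i)
      (fun w => (w.1, fun j => w.2 j * fl i j)) (fun w => sp w.2 i) where
  mp := (symG (LB := LB) (LF := LF) b cB cF s η hl c (fl i)).mp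
  inv w := by
    refine Prod.ext rfl ?_
    funext j
    show w.2 j * fl i j * fl i j = w.2 j
    rw [mul_assoc, Int.units_mul_self, mul_one]
  meas := measurable_sp i
  sq w := by rw [pow_two, sp_mul_self]
  odd w := by
    show sp (fun j => w.2 j * fl i j) i = _
    rw [sp_mul, sp_fl_self]
    ring
  on e he w := by
    have h := Sm_gauge b cB cF s η (fl i) e w
    rw [eps_all, if_pos he] at h
    rw [h]
    ring
  off e he w := by
    have h := Sm_gauge b cB cF s η (fl i) e w
    rw [eps_all, if_neg he, one_mul] at h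
    exact h

lemma card_row (i : Fin n) : ((row i).card : ℝ) ≤ n := by
  have h := sum_row i (fun _ => (1 : ℝ))
  simp only [Finset.sum_const, nsmul_eq_mul, mul_one] at h
  rw [h]
  have h1 : (Finset.univ.erase i).card ≤ n := by
    refine (Finset.card_erase_le).trans ?_
    simp
  exact_mod_cast h1

/-- the energies of the row -/
theorem sum_all {η : ℝ} (hη : 0 ≤ η) (b : ℝ) (cB : LB → ℝ) (cF : LF → ℝ) (s : ℝ) (i : Fin n)
    (w : ℝ × Xs n) : ∑ e ∈ Rall LB LF i, Sm b cB cF s η e w ^ 2 ≤
      b ^ 2 * ∑ l, cB l ^ 2 + ∑ l, cF l ^ 2 + (1 + η) ^ 2 * s ^ 2 := by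
  unfold Rall
  rw [Finset.sum_disjSum, Finset.sum_disjSum, Finset.sum_product, Finset.sum_product,
    Finset.sum_singleton, Finset.sum_singleton]
  refine add_le_add (add_le_add ?_ (le_of_eq ?_)) ?_
  · have h1 : ∀ p ∈ row i, ∑ l, Sm b cB cF s η (bd LF p l) w ^ 2 =
        b ^ 2 / n * ∑ l, cB l ^ 2 := by
      intro p _
      rw [Finset.mul_sum]
      refine Finset.sum_congr rfl fun l _ => ?_
      show (b / √n * cB l * SkS p w.2) ^ 2 = _
      have h2 := SkS_sq w.2 p
      have h3 := div_sqrt_sq b n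
      calc (b / √n * cB l * SkS p w.2) ^ 2 =
          (b / √n * (b / √n)) * cB l ^ 2 * (SkS p w.2 * SkS p w.2) := by ring
        _ = _ := by rw [h2, h3, mul_one]
    rw [Finset.sum_congr rfl h1, Finset.sum_const, nsmul_eq_mul, ← mul_assoc]
    refine mul_le_mul_of_nonneg_right ?_ (Finset.sum_nonneg fun _ _ => sq_nonneg _)
    have hc := card_row i
    rcases Nat.eq_zero_or_pos n with hn | hn
    · subst hn
      exact i.elim0
    · have hn' : (0 : ℝ) < n := by exact_mod_cast hn
      calc ((row i).card : ℝ) * (b ^ 2 / n) ≤ n * (b ^ 2 / n) :=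
            mul_le_mul_of_nonneg_right hc (by positivity)
        _ = b ^ 2 := by field_simp
  · refine Finset.sum_congr rfl fun l _ => ?_
    show (cF l * sp w.2 i) ^ 2 = _
    have := sp_mul_self w.2 i
    calc (cF l * sp w.2 i) ^ 2 = cF l ^ 2 * (sp w.2 i * sp w.2 i) := by ring
      _ = _ := by rw [this, mul_one]
  · show (al η w.1 * s * sp w.2 i) ^ 2 ≤ _
    have h0 := sp_mul_self w.2 i
    have h1 : (al η w.1 * s * sp w.2 i) ^ 2 = al η w.1 ^ 2 * s ^ 2 := by
      calc (al η w.1 * s * sp w.2 i) ^ 2 = al η w.1 ^ 2 * s ^ 2 * (sp w.2 i * sp w.2 i) := by ring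
        _ = _ := by rw [h0, mul_one]
    rw [h1]
    refine mul_le_mul_of_nonneg_right ?_ (sq_nonneg _)
    have h2 := al_mem hη w.1
    have h3 : |al η w.1| ≤ 1 + η := by
      rw [abs_le]
      constructor <;> linarith [h2.1, h2.2]
    rw [← sq_abs]
    exact pow_le_pow_left₀ (abs_nonneg _) h3 2

/-- the revealed sets which do not touch the site -/
theorem Kg_sub {SB : LB → Finset (Fin n)} {SF : LF → Finset (Fin n)} {G : Finset (Fin n)}
    {i : Fin n} (hB : ∀ l, i ∉ SB l) (hF : ∀ l, i ∉ SF l) (hG : i ∉ G) :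
    Kg SB SF G ⊆ (Rall LB LF i)ᶜ := by
  intro e he
  rw [Finset.mem_compl]
  rcases e with (⟨p, l⟩ | ⟨j, l⟩) | j
  · rw [bd_mem] at he
    rw [bd_all, mem_row, not_or]
    constructor
    · intro h
      exact hB l (h ▸ he.1)
    · intro h
      exact hB l (h ▸ he.2)
  · rw [fd_mem] at he
    rw [fd_all]
    intro h
    exact hF l (h ▸ he)
  · rw [gd_mem] at he
    rw [gd_all]
    intro h
    exact hG (h ▸ he)

theorem Kset_sub {A : Finset (Fin n)} {i : Fin n} (hi : i ∉ A) (BL : Finset LB)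
    (FL : Finset LF) : Kset A BL FL ⊆ (Rall LB LF i)ᶜ := by
  unfold Kset
  refine Kg_sub (fun l => ?_) (fun l => ?_) (Finset.notMem_empty _)
  · split_ifs
    · exact hi
    · exact Finset.notMem_empty _
  · split_ifs
    · exact hi
    · exact Finset.notMem_empty _

end Vale.Agent.P146.H355
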