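import Vale.Agent.P146.H355.Inst

/-!
Markov's inequality for `Ma`: if `κ ≤ -c + A * Ma + e` pointwise, `e ≤ c / 4`, then `κ > -c / 2`
has small probability, and `κ ≤ -c / 2` off this event.
-/

open MeasureTheory ProbabilityTheory Filter Topology

namespace Vale.Agent.P146.H355

open Vale.Agent.P157.Lv Vale.Agent.P146.H425 Vale.Agent.P146.H325 Vale.Agent.P146.H646
  Vale.Agent.P146.H196 Vale.Agent.P146.H347 Vale.Agent.P146.H475 Vale.Agent.P146.H816

set_option linter.unusedSectionVars false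

variable {ι : Type} [Fintype ι] [DecidableEq ι] {Ω : Type} [MeasurableSpace Ω]
  {J : Type} [Fintype J] [DecidableEq J]
  {μ : Measure Ω} {k : ℝ} {S : ι → Ω → ℝ} {M0 x : ℝ} {σ : J → Ω → ℝ} {K : Finset ι}
  {Hs : Finset J}

lemma bm_Ma (hG : GM μ S M0) (k x : ℝ) (h : KSites μ S σ K Hs) (i : J) :
    BM (Ma μ k S x K (σ i)) :=
  bm_c2 hG k x K ((bm_ui h i).mul ((bm_Ai hG k x h i).pow 2))

lemma Ma_nonneg (hG : GM μ S M0) (k x : ℝ) (h : KSites μ S σ K Hs) (i : J) (z : ι → ℝ) :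
    0 ≤ Ma μ k S x K (σ i) z := by
  unfold Ma
  refine div_nonneg (integral_nonneg fun p => ?_) ((wt hG k x).wn_pos K z).le
  exact mul_nonneg (mul_nonneg (ui_nonneg h i (p, z)) (sq_nonneg _))
    ((wt_W2 hG k x p).wn_pos K z).le

lemma Ma_le_one (hG : GM μ S M0) (k x : ℝ) (h : KSites μ S σ K Hs) (i : J) (z : ι → ℝ) :
    Ma μ k S x K (σ i) z ≤ 1 := by
  refine (le_abs_self _).trans (abs_c2_le hG k x K
    ((bm_ui h i).mul ((bm_Ai hG k x h i).pow 2)) (fun q => ?_) z)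
  have h1 := abs_Ai hG k x h i q
  have h2 : |Ai μ k S x σ K i q ^ 2| ≤ 1 := by
    rw [abs_pow]
    exact pow_le_one₀ (abs_nonneg _) h1
  have h3 : |ui σ i q| ≤ 1 := by
    rcases ui_or h i q with h1 | h1 <;> rw [h1.1] <;> norm_num
  calc |ui σ i q * Ai μ k S x σ K i q ^ 2| = |ui σ i q| * |Ai μ k S x σ K i q ^ 2| := abs_mul _ _
    _ ≤ 1 * 1 := mul_le_mul h3 h2 (abs_nonneg _) zero_le_one
    _ = 1 := one_mul _

lemma dep_Ma (i : J) : H646.Dep K (Ma μ k S x K (σ i)) := by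
  refine dep_c2 (Φ := fun q => ui σ i q * Ai μ k S x σ K i q ^ 2) fun p z z' => ?_
  have h3 := dep_Ai (μ := μ) (k := k) (S := S) (x := x) (σ := σ) (K := K) i p z z'
  simp only at h3 ⊢
  rw [h3]
  rfl

lemma ex_mono' (hG : GM μ S M0) (k x : ℝ) {f g : (ι → ℝ) → ℝ} (hf : BM f) (hg : BM g)
    (hle : ∀ z, f z ≤ g z) : ex (g1 ι) (Zxm μ k S x) f ≤ ex (g1 ι) (Zxm μ k S x) g := by
  have hw := wt hG k x
  unfold ex
  refine div_le_div_of_nonneg_right ?_ hw.tot_pos.le
  exact integral_mono (hw.int_mul hf) (hw.int_mul hg)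
    fun z => mul_le_mul_of_nonneg_left (hle z) (hw.pos z).le

lemma ex_const_mul' (c : ℝ) (f : (ι → ℝ) → ℝ) {w : (ι → ℝ) → ℝ} :
    ex (g1 ι) w (fun z => c * f z) = c * ex (g1 ι) w f := by
  unfold ex
  rw [mul_div_assoc', ← integral_const_mul]
  congr 1
  refine integral_congr_ae (Filter.Eventually.of_forall fun z => ?_)
  simp only
  ring

/-- **Markov**: `κ ≤ -c / 2` off an event of small probability. -/
theorem ex_bad (hG : GM μ S M0) (k x : ℝ) (h : KSites μ S σ K Hs) (i : J)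
    {κ : (ι → ℝ) → ℝ} (hκ : Measurable κ) {c A e : ℝ} (hc : 0 < c) (hA : 0 ≤ A)
    (he : e ≤ c / 4) (hle : ∀ z, κ z ≤ -c + A * Ma μ k S x K (σ i) z + e) :
    ex (g1 ι) (Zxm μ k S x) (fun z => if -c / 2 < κ z then 1 else 0) ≤
      4 * A / c * ex (g1 ι) (Zxm μ k S x) (Ma μ k S x K (σ i)) := by
  rw [← ex_const_mul']
  have hb := bm_Ma hG k x h i
  refine ex_mono' hG k x ?_ ((BM.const _).mul hb) fun z => ?_
  · refine ⟨Measurable.ite (measurableSet_lt measurable_const hκ) measurable_const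
      measurable_const, 1, fun z => ?_⟩
    split_ifs <;> norm_num
  · have h0 := Ma_nonneg hG k x h i z
    split_ifs with h1
    · have h2 := hle z
      have h3 : c / 4 ≤ A * Ma μ k S x K (σ i) z := by linarith
      have h4 : 4 * A / c * Ma μ k S x K (σ i) z =
          4 / c * (A * Ma μ k S x K (σ i) z) := by ring
      rw [h4]
      calc (1 : ℝ) = 4 / c * (c / 4) := by field_simp
        _ ≤ _ := mul_le_mul_of_nonneg_left h3 (by positivity)
    · positivity

end Vale.Agent.P146.H355
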