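import Vale.Agent.P146.H355.K3Fin
import Vale.Agent.P146.H281.U1

/-!
The sites and the flips of the ensemble `U` of `H281`.
-/

open MeasureTheory ProbabilityTheory Filter Topology

namespace Vale.Agent.P146.H355

open Vale.Agent.P157.Lv Vale.Agent.P146.H425 Vale.Agent.P146.H325 Vale.Agent.P146.H646
  Vale.Agent.P146.H196 Vale.Agent.P146.H347 Vale.Agent.P146.H475 Vale.Agent.P146.H816
  Vale.Agent.P146.H281.U

set_option linter.unusedSectionVars false

variable {Th : Type} [MeasurableSpace Th] {n : ℕ} {LB LF : Type} [Fintype LB] [DecidableEq LB]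
  [Fintype LF] [DecidableEq LF]

lemma meas_spU (i : Fin n) : Measurable fun w : Th × Xs n => sp w.2 i := by
  have := dmx n
  exact (Measurable.of_discrete (f := fun σ : Xs n => sp σ i)).comp measurable_snd

/-- **the sites of the ensemble `U`**, general revealed sets -/
theorem ksitesU_g {ν : Measure Th} (hν : IsFiniteMeasure ν) (b : ℝ) (cB : LB → ℝ) (cF : LF → ℝ)
    (a : LF → Th → ℝ)
    {SB : LB → Finset (Fin n)} {SF : LF → Finset (Fin n)} {G Hs : Finset (Fin n)}
    (hB : ∀ l, Disjoint (SB l) Hs) (hF : ∀ l, Disjoint (SF l) Hs) (hG : Disjoint G Hs) :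
    KSites (muU ν n) (SU b cB cF a) (fun j (w : Th × Xs n) => sp w.2 j) (Kg SB SF G) Hs where
  meas j := meas_spU j
  sq j w := sp_mul_self w.2 j
  flip i hi := by
    refine ⟨eps LB LF (fl i), fun w => (w.1, fun j => w.2 j * fl i j),
      ⟨symGU b cB cF a hν (fl i), fun e _ => rfl, fun e he => ?_⟩, fun j w => ?_⟩
    · have h1 : ∀ {A : Finset (Fin n)}, Disjoint A Hs → ∀ a ∈ A, fl i a = 1 := by
        intro A hA a ha
        unfold fl
        rw [if_neg]
        rintro rfl
        exact Finset.disjoint_left.1 hA ha hi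
      exact eps_eq_one (fl i) (fun l => h1 (hB l)) (fun l => h1 (hF l)) (h1 hG) he
    · show sp (fun j => w.2 j * fl i j) j = _
      rw [sp_mul, sp_fl]
      split_ifs <;> ring
  swap i hi j hj := by
    refine ⟨cP LB LF (Equiv.swap i j), fun _ => 1, fun w => (w.1, fun l => w.2 (Equiv.swap i j l)),
      ⟨symPU b cB cF a hν (Equiv.swap i j), fun e he => ?_, fun e _ => rfl⟩,
      fun l w => rfl, fun w hw => ?_⟩
    · have h1 : ∀ {A : Finset (Fin n)}, Disjoint A Hs → ∀ a ∈ A, Equiv.swap i j a = a := by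
        intro A hA a ha
        refine Equiv.swap_apply_of_ne_of_ne ?_ ?_
        · rintro rfl
          exact Finset.disjoint_left.1 hA ha hi
        · rintro rfl
          exact Finset.disjoint_left.1 hA ha hj
      exact cP_fix (Equiv.swap i j) (fun l => h1 (hB l)) (fun l => h1 (hF l)) (h1 hG) he
    · have h1 : w.2 i = w.2 j := sp_inj hw
      refine Prod.ext rfl ?_
      funext l
      show w.2 (Equiv.swap i j l) = w.2 l
      rw [Equiv.swap_apply_def]
      split_ifs with h2 h3
      · rw [h2, h1]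
      · rw [h3, h1]
      · rfl
  perm π := ⟨cP LB LF π, fun _ => 1, fun w => (w.1, fun l => w.2 (π l)),
    symPU b cB cF a hν π, fun _ _ => rfl⟩

/-- the block form -/
theorem ksitesU {ν : Measure Th} (hν : IsFiniteMeasure ν) (b : ℝ) (cB : LB → ℝ) (cF : LF → ℝ)
    (a : LF → Th → ℝ) (A : Finset (Fin n)) (BL : Finset LB) (FL : Finset LF) :
    KSites (muU ν n) (SU b cB cF a) (fun j (w : Th × Xs n) => sp w.2 j) (Kset A BL FL) Aᶜ := by
  unfold Kset
  refine ksitesU_g hν b cB cF a (fun l => ?_) (fun l => ?_) (Finset.disjoint_empty_left _)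
  · split_ifs
    · exact disjoint_compl_right
    · exact Finset.disjoint_empty_left _
  · split_ifs
    · exact disjoint_compl_right
    · exact Finset.disjoint_empty_left _

/-- **the flip of the site `i`** -/
theorem flipU {ν : Measure Th} (hν : IsFiniteMeasure ν) (b : ℝ) (cB : LB → ℝ) (cF : LF → ℝ)
    (a : LF → Th → ℝ) (i : Fin n) : H116.Flip (muU ν n) (SU b cB cF a) (Rall LB LF i)
      (fun w => (w.1, fun j => w.2 j * fl i j)) (fun w : Th × Xs n => sp w.2 i) where
  mp := (symGU (LB := LB) (LF := LF) b cB cF a hν (fl i)).mp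
  inv w := by
    refine Prod.ext rfl ?_
    funext j
    show w.2 j * fl i j * fl i j = w.2 j
    rw [mul_assoc, Int.units_mul_self, mul_one]
  meas := meas_spU i
  sq w := by rw [pow_two, sp_mul_self]
  odd w := by
    show sp (fun j => w.2 j * fl i j) i = _
    rw [sp_mul, sp_fl_self]
    ring
  on e he w := by
    have h := SU_gauge b cB cF a (fl i) e w
    rw [eps_all, if_pos he] at h
    rw [h]
    ring
  off e he w := by
    have h := SU_gauge b cB cF a (fl i) e w
    rw [eps_all, if_neg he, one_mul] at h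
    exact h

/-- the energies of the row -/
theorem sum_allU {a : LF → Th → ℝ} {η : ℝ} (hA : AmU a η) (b : ℝ) (cB : LB → ℝ) (cF : LF → ℝ)
    (i : Fin n) (w : Th × Xs n) : ∑ e ∈ Rall LB LF i, SU b cB cF a e w ^ 2 ≤
      b ^ 2 * ∑ l, cB l ^ 2 + (1 + η) ^ 2 * ∑ l, cF l ^ 2 := by
  unfold Rall
  rw [Finset.sum_disjSum, Finset.sum_disjSum, Finset.sum_product, Finset.sum_product,
    Finset.sum_singleton, Finset.sum_singleton]
  have h0 : SU b cB cF a (Sum.inr i : Co n LB LF) w ^ 2 = 0 := by
    show (0 : ℝ) ^ 2 = 0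
    norm_num
  rw [h0, add_zero]
  refine add_le_add ?_ ?_
  · have h1 : ∀ p ∈ row i, ∑ l, SU b cB cF a (bd LF p l) w ^ 2 =
        b ^ 2 / n * ∑ l, cB l ^ 2 := by
      intro p _
      rw [Finset.mul_sum]
      refine Finset.sum_congr rfl fun l _ => ?_
      show (b / √n * cB l * SkS p w.2) ^ 2 = _
      have h2 := SkS_sq w.2 p
      have h3 := div_sqrt_sq b n
      calc (b / √n * cB l * SkS p w.2) ^ 2 =
          (b / √n * (b / √n)) * cB l ^ 2 * (SkS p w.2 * SkS p w.2) := by ring
        _ = _ := by rw [h2, h3, mul_one]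
    rw [Finset.sum_congr rfl h1, Finset.sum_const, nsmul_eq_mul, ← mul_assoc]
    refine mul_le_mul_of_nonneg_right ?_ (Finset.sum_nonneg fun _ _ => sq_nonneg _)
    have hc := card_row i
    rcases Nat.eq_zero_or_pos n with hn | hn
    · subst hn
      exact i.elim0
    · have hn' : (0 : ℝ) < n := by exact_mod_cast hn
      calc ((row i).card : ℝ) * (b ^ 2 / n) ≤ n * (b ^ 2 / n) :=
            mul_le_mul_of_nonneg_right hc (by positivity)
        _ = b ^ 2 := by field_simp
  · rw [Finset.mul_sum]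
    refine Finset.sum_le_sum fun l _ => ?_
    show (cF l * a l w.1 * sp w.2 i) ^ 2 ≤ _
    have h4 := sp_mul_self w.2 i
    have h1 : (cF l * a l w.1 * sp w.2 i) ^ 2 = a l w.1 ^ 2 * cF l ^ 2 := by
      calc (cF l * a l w.1 * sp w.2 i) ^ 2 =
          a l w.1 ^ 2 * cF l ^ 2 * (sp w.2 i * sp w.2 i) := by ring
        _ = _ := by rw [h4, mul_one]
    rw [h1]
    refine mul_le_mul_of_nonneg_right ?_ (sq_nonneg _)
    rw [← sq_abs]
    exact pow_le_pow_left₀ (abs_nonneg _) (hA.abs l w.1) 2

end Vale.Agent.P146.H355
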