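import Vale.Agent.P146.H615.Ex

/-!
The good event of the near end: if `κ ≤ -c / 2` off an event of probability `≤ pb` then the mean of
`κ ^ 2 Q ^ 3` is at least `(c ^ 2 / 4) q ^ (3 / 2)`, `q = E Q ^ 2 - U ^ 2 pb - pU`, where `pU` is the
part of `E Q ^ 2` with `Q > U`.
-/

open MeasureTheory ProbabilityTheory

namespace Vale.Agent.P146.H355

set_option linter.unusedSectionVars false

open Vale.Agent.P146.H646 Vale.Agent.P146.H615

section
variable {κ : Type*} [Fintype κ] [DecidableEq κ] {μ : κ → Measure ℝ}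
  [∀ e, IsProbabilityMeasure (μ e)] {w Q k : (κ → ℝ) → ℝ} {c U pb pU : ℝ}

lemma bm_ind {A : (κ → ℝ) → Prop} [DecidablePred A] (h : MeasurableSet {z | A z}) :
    BM fun z => if A z then (1 : ℝ) else 0 := by
  refine ⟨Measurable.ite h measurable_const measurable_const, 1, fun z => ?_⟩
  split_ifs <;> norm_num

lemma bpw (m : ℕ) (h : BM Q) : BM fun z => Q z ^ m := by
  induction m with
  | zero => simpa using BM.const (κ := κ) (1 : ℝ)
  | succ m ih =>
    have := ih.mul h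
    simpa only [pow_succ] using this

/-- `E g Q ^ 3 ≥ (E g Q ^ 2) ^ (3 / 2)` for `0 ≤ g ≤ 1`. -/
theorem ex_cube (hw : Wt μ w) (hQ : BM Q) (hQ0 : ∀ z, 0 ≤ Q z) {g : (κ → ℝ) → ℝ} (hg : BM g)
    (hg0 : ∀ z, 0 ≤ g z) (hg1 : ∀ z, g z ≤ 1) :
    ex μ w (fun z => g z * Q z ^ 2) * √(ex μ w (fun z => g z * Q z ^ 2)) ≤
      ex μ w (fun z => g z * Q z ^ 3) := by
  obtain ⟨q, hq⟩ : ∃ q, q = ex μ w (fun z => g z * Q z ^ 2) := ⟨_, rfl⟩
  have hb2 : BM fun z => g z * Q z ^ 2 := hg.mul (bpw 2 hQ)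
  have hb3 : BM fun z => g z * Q z ^ 3 := hg.mul (bpw 3 hQ)
  have hq0 : 0 ≤ q := by
    rw [hq]
    exact ex_nonneg hw fun z => mul_nonneg (hg0 z) (sq_nonneg _)
  rw [← hq]
  obtain ⟨s, hs⟩ : ∃ s, s = √q := ⟨_, rfl⟩
  have hs0 : 0 ≤ s := by rw [hs]; exact Real.sqrt_nonneg _
  have hs2 : s ^ 2 = q := by rw [hs]; exact Real.sq_sqrt hq0
  have h1 : ex μ w (fun z => 3 / 2 * s * (g z * Q z ^ 2) - s ^ 3 / 2 * 1) ≤
      ex μ w (fun z => g z * Q z ^ 3) := by
    refine ex_mono hw ((bcm _ hb2).sub (bcm _ (BM.const 1))) hb3 fun z => ?_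
    have h2 := hQ0 z
    have h3 : 0 ≤ (Q z - s) ^ 2 * (Q z + s / 2) := by positivity
    have h4 : Q z ^ 3 - 3 / 2 * s * Q z ^ 2 + s ^ 3 / 2 = (Q z - s) ^ 2 * (Q z + s / 2) := by ring
    have h5 := mul_nonneg (hg0 z) h3
    have h6 : 0 ≤ (1 - g z) * (s ^ 3 / 2) :=
      mul_nonneg (by linarith [hg1 z]) (by positivity)
    rw [← h4] at h5
    nlinarith
  rw [ex_sub hw (bcm _ hb2) (bcm _ (BM.const 1)), ex_cmul, ex_cmul, ex_const hw, ← hq] at h1
  rw [← hs]
  have h7 : 3 / 2 * s * q - s ^ 3 / 2 * 1 = q * s := by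
    rw [← hs2]
    ring
  linarith

/-- **the good event** -/
theorem good_low (hw : Wt μ w) (hQ : BM Q) (hQ0 : ∀ z, 0 ≤ Q z) (hk : BM k) (hc : 0 < c)
    (hpb : ex μ w (fun z => if -c / 2 < k z then 1 else 0) ≤ pb)
    (hpU : ex μ w (fun z => if U < Q z then Q z ^ 2 else 0) ≤ pU) :
    c ^ 2 / 4 * (max (ex μ w (fun z => Q z ^ 2) - (U ^ 2 * pb + pU)) 0 *
      √(max (ex μ w (fun z => Q z ^ 2) - (U ^ 2 * pb + pU)) 0)) ≤
      ex μ w (fun z => (if U < Q z then 0 else 1) * (k z ^ 2 * Q z ^ 3)) := by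
  obtain ⟨B, hB⟩ : ∃ B : (κ → ℝ) → ℝ, B = fun z => if -c / 2 < k z then 1 else 0 := ⟨_, rfl⟩
  obtain ⟨I, hI⟩ : ∃ I : (κ → ℝ) → ℝ, I = fun z => if U < Q z then 0 else 1 := ⟨_, rfl⟩
  have mQ : MeasurableSet {z | U < Q z} := measurableSet_lt measurable_const hQ.1
  have bB : BM B := by
    rw [hB]
    exact bm_ind (measurableSet_lt measurable_const hk.1)
  have bI : BM I := by
    rw [hI]
    refine ⟨Measurable.ite mQ measurable_const measurable_const, 1, fun z => ?_⟩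
    split_ifs <;> norm_num
  have hB01 : ∀ z, B z = 0 ∨ B z = 1 := fun z => by
    rw [hB]
    by_cases h : -c / 2 < k z <;> simp [h]
  have hI01 : ∀ z, I z = 0 ∨ I z = 1 := fun z => by
    rw [hI]
    by_cases h : U < Q z <;> simp [h]
  obtain ⟨g, hg⟩ : ∃ g : (κ → ℝ) → ℝ, g = fun z => I z * (1 - B z) := ⟨_, rfl⟩
  have bg : BM g := by
    rw [hg]
    exact bI.mul ((BM.const 1).sub bB)
  have hg0 : ∀ z, 0 ≤ g z := fun z => by
    rw [hg]
    rcases hB01 z with h | h <;> rcases hI01 z with h' | h' <;> simp [h, h']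
  have hg1 : ∀ z, g z ≤ 1 := fun z => by
    rw [hg]
    rcases hB01 z with h | h <;> rcases hI01 z with h' | h' <;> simp [h, h']
  have h1 := ex_cube hw hQ hQ0 bg hg0 hg1
  obtain ⟨q1, hq1⟩ : ∃ q1, q1 = ex μ w (fun z => g z * Q z ^ 2) := ⟨_, rfl⟩
  rw [← hq1] at h1
  have hq10 : 0 ≤ q1 := by
    rw [hq1]
    exact ex_nonneg hw fun z => mul_nonneg (hg0 z) (sq_nonneg _)
  have bU : BM fun z => if U < Q z then Q z ^ 2 else 0 := by
    have h2 : (fun z => if U < Q z then Q z ^ 2 else 0) = fun z => (1 - I z) * Q z ^ 2 := by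
      funext z
      rw [hI]
      by_cases h : U < Q z <;> simp [h]
    rw [h2]
    exact ((BM.const 1).sub bI).mul (bpw 2 hQ)
  -- the lower bound of `q1`
  have h2 : ex μ w (fun z => Q z ^ 2) ≤ q1 + (U ^ 2 * pb + pU) := by
    have h3 : ex μ w (fun z => Q z ^ 2) ≤ ex μ w (fun z => g z * Q z ^ 2 +
        (U ^ 2 * B z + if U < Q z then Q z ^ 2 else 0)) := by
      refine ex_mono hw (bpw 2 hQ) ((bg.mul (bpw 2 hQ)).add ((bcm _ bB).add bU))
        fun z => ?_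
      have h4 := hQ0 z
      rw [hg]
      by_cases h : U < Q z
      · rw [if_pos h]
        have h5 : 0 ≤ U ^ 2 * B z := mul_nonneg (sq_nonneg _) (by
          rcases hB01 z with h' | h' <;> simp [h'])
        have h6 : I z = 0 := by rw [hI]; simp [h]
        simp only [h6, zero_mul, zero_add]
        linarith
      · rw [if_neg h, add_zero]
        have h6 : I z = 1 := by rw [hI]; simp [h]
        simp only [h6, one_mul]
        have h7 : Q z ^ 2 ≤ U ^ 2 := pow_le_pow_left₀ h4 (not_lt.1 h) 2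
        rcases hB01 z with h' | h'
        · rw [h']
          linarith
        · rw [h']
          linarith
    rw [ex_add hw (bg.mul (bpw 2 hQ)) ((bcm _ bB).add bU), ex_add hw (bcm _ bB) bU, ex_cmul,
      ← hq1] at h3
    have h4 : ex μ w B ≤ pb := by rw [hB]; exact hpb
    have h5 := mul_le_mul_of_nonneg_left h4 (sq_nonneg U)
    linarith
  have h3 : max (ex μ w (fun z => Q z ^ 2) - (U ^ 2 * pb + pU)) 0 ≤ q1 :=
    max_le (by linarith) hq10
  have h4 : max (ex μ w (fun z => Q z ^ 2) - (U ^ 2 * pb + pU)) 0 *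
      √(max (ex μ w (fun z => Q z ^ 2) - (U ^ 2 * pb + pU)) 0) ≤ q1 * √q1 :=
    mul_le_mul h3 (Real.sqrt_le_sqrt h3) (Real.sqrt_nonneg _) hq10
  -- the upper bound
  have h5 : c ^ 2 / 4 * ex μ w (fun z => g z * Q z ^ 3) ≤
      ex μ w (fun z => I z * (k z ^ 2 * Q z ^ 3)) := by
    rw [← ex_cmul]
    refine ex_mono hw (bcm _ (bg.mul (bpw 3 hQ)))
      (bI.mul ((bpw 2 hk).mul (bpw 3 hQ))) fun z => ?_
    have h6 : 0 ≤ Q z ^ 3 := pow_nonneg (hQ0 z) 3
    rw [hg]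
    rcases hI01 z with hi | hi
    · simp only [hi, zero_mul, mul_zero, le_refl]
    · simp only [hi, one_mul]
      by_cases h : -c / 2 < k z
      · have : B z = 1 := by rw [hB]; simp [h]
        rw [this]
        have h7 : 0 ≤ k z ^ 2 * Q z ^ 3 := mul_nonneg (sq_nonneg _) h6
        linarith
      · have : B z = 0 := by rw [hB]; simp [h]
        rw [this]
        have h7 : c ^ 2 / 4 ≤ k z ^ 2 := by nlinarith [not_lt.1 h]
        have h8 := mul_le_mul_of_nonneg_right h7 h6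
        linarith
  have h6 := mul_le_mul_of_nonneg_left (h4.trans h1) (by positivity : 0 ≤ c ^ 2 / 4)
  have h7 : ex μ w (fun z => I z * (k z ^ 2 * Q z ^ 3)) =
      ex μ w (fun z => (if U < Q z then 0 else 1) * (k z ^ 2 * Q z ^ 3)) := by rw [hI]
  rw [← h7]
  exact h6.trans h5

end

end Vale.Agent.P146.H355
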